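import Vale.Agent.P347.Shift.MV.Sem
import Vale.Agent.P347.Shift.SyntaxCen

/-!
# P347, MV: the node centres of the built expressions

The weights sum to zero, so the surrogate sees only differences of the smoothed field: it is at most
`W L (‖a‖ + √d)` wherever its centre is.
-/

open MeasureTheory ProbabilityTheory Real
open scoped RealInnerProductSpace

namespace Vale.Agent.P347.Shift.MV

open Quarter

variable {κ : Type} {J p n d m : ℕ} {η w B W : ℝ} {P : Par κ p} {V : κ → Sp d → Sp d}
  {c : Fin J → Sp d}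

/-- The growth of the centres, by depth. -/
def gcn (B : ℝ) : ℕ → ℝ
  | 0 => 0
  | j + 1 => 3 * gcn B j + 3 * B ^ 2

lemma gcn_nonneg (B : ℝ) : ∀ j, 0 ≤ gcn B j
  | 0 => le_rfl
  | j + 1 => by have := gcn_nonneg B j; unfold gcn; positivity

lemma gcn_le_succ (B : ℝ) (j : ℕ) : gcn B j ≤ gcn B (j + 1) := by
  rw [show gcn B (j + 1) = 3 * gcn B j + 3 * B ^ 2 from rfl]
  linarith [gcn_nonneg B j, sq_nonneg B]

lemma integral_norm_le : ∫ u, ‖u‖ ∂gd d ≤ √(d : ℝ) := by
  obtain ⟨i2, e2⟩ := integral_norm_sq (ι := Fin d)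
  rw [Fintype.card_fin] at e2
  have hm : MemLp (fun u : Sp d => ‖u‖) 2 (gd d) :=
    (memLp_two_iff_integrable_sq (continuous_norm.aestronglyMeasurable)).2 i2
  have hv := variance_nonneg (fun u : Sp d => ‖u‖) (gd d)
  rw [variance_eq_sub hm] at hv
  simp only [Pi.pow_apply] at hv
  refine le_sqrt_of_sq_le ?_
  rw [← e2]
  exact sub_nonneg.1 hv

/-- The surrogate is small. -/
lemma norm_surr_apply_le (hP : P.Ok η w B W) (hw0 : ∑ j, P.w j = 0)
    (hV : ∀ k, IsField P.L (V k)) (k : κ) {σ : ℝ} (hσ : 0 < σ) (v a : Sp d) :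
    ‖Adj.surr (V k) σ P.w (fun m => P.lam * P.v m) P.lam v a‖ ≤ W * P.L * (‖a‖ + √d) := by
  have hl := hP.hlam
  have hL := hP.hL
  set g : Sp d := smth 1 σ (V k) v
  have h0 : Adj.surr (V k) σ P.w (fun m => P.lam * P.v m) P.lam v a =
      ∑ j, (P.w j / (P.lam * σ)) •
        (smth 1 (σ * √(1 - (P.lam * P.v j) ^ 2)) (V k) (v + (σ * (P.lam * P.v j)) • a) - g) := by
    simp only [Adj.surr, smul_sub, Finset.sum_sub_distrib, ← Finset.sum_smul, ← Finset.sum_div,
      hw0, zero_div, zero_smul, sub_zero]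
  have hρ : ∀ j, |P.lam * P.v j| ≤ P.lam := fun j => by
    rw [abs_mul, abs_of_pos hl]
    exact mul_le_of_le_one_right hl.le (hP.hv j)
  have hterm : ∀ j, ‖smth 1 (σ * √(1 - (P.lam * P.v j) ^ 2)) (V k)
      (v + (σ * (P.lam * P.v j)) • a) - g‖ ≤ P.L * (σ * P.lam) * (‖a‖ + √d) := by
    intro j
    set ρ := P.lam * P.v j
    have hs : |√(1 - ρ ^ 2) - 1| ≤ P.lam := by
      have h1 : √(1 - ρ ^ 2) ≤ 1 := sqrt_le_one.2 (by nlinarith [sq_nonneg ρ])
      have h3 : ρ ^ 2 ≤ P.lam * P.lam := by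
        rw [← sq_abs, sq]; exact mul_le_mul (hρ j) (hρ j) (abs_nonneg _) hl.le
      have h4 : 0 ≤ 1 - ρ ^ 2 := by nlinarith [hP.hlam2]
      have h2 : 1 - ρ ^ 2 ≤ √(1 - ρ ^ 2) :=
        le_sqrt_of_sq_le (by nlinarith [sq_nonneg ρ])
      rw [abs_sub_comm, abs_of_nonneg (by linarith)]
      nlinarith [hP.hlam2]
    simp only [g, smth, one_smul]
    rw [← integral_sub (Adj.integrable_shift (hV k).smooth (hV k).bound _ _)
      (Adj.integrable_shift (hV k).smooth (hV k).bound _ _)]
    refine (norm_integral_le_integral_norm _).trans ?_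
    have hb : ∀ u : Sp d, ‖V k (v + (σ * ρ) • a + (σ * √(1 - ρ ^ 2)) • u) - V k (v + σ • u)‖ ≤
        P.L * (σ * P.lam) * (‖a‖ + ‖u‖) := fun u => by
      refine (Adj.norm_field_sub (hV k).smooth (hV k).bound _ _).trans ?_
      rw [mul_assoc P.L]
      refine mul_le_mul_of_nonneg_left ?_ hL
      rw [show v + (σ * ρ) • a + (σ * √(1 - ρ ^ 2)) • u - (v + σ • u) =
        (σ * ρ) • a + (σ * (√(1 - ρ ^ 2) - 1)) • u by module]
      refine (norm_add_le _ _).trans ?_
      rw [norm_smul, norm_smul, norm_eq_abs, norm_eq_abs, abs_mul, abs_mul, abs_of_pos hσ,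
        mul_add (σ * P.lam)]
      refine add_le_add (mul_le_mul_of_nonneg_right ?_ (norm_nonneg _))
        (mul_le_mul_of_nonneg_right ?_ (norm_nonneg _))
      · exact mul_le_mul_of_nonneg_left (by rw [← abs_mul]; exact hρ j) hσ.le
      · rw [abs_mul, abs_of_pos hσ]; exact mul_le_mul_of_nonneg_left hs hσ.le
    refine (integral_mono_of_nonneg (ae_of_all _ fun u => norm_nonneg _)
      (((integrable_const ‖a‖).add integrable_norm_gd).const_mul _) (ae_of_all _ hb)).trans ?_
    rw [integral_const_mul]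
    refine mul_le_mul_of_nonneg_left ?_ (by positivity)
    simp only [Pi.add_apply]
    rw [integral_add (integrable_const _) integrable_norm_gd, integral_const, probReal_univ,
      one_smul]
    exact add_le_add le_rfl integral_norm_le
  rw [h0]
  refine (norm_sum_le _ _).trans ((Finset.sum_le_sum (g := fun j => |P.w j| *
    (P.L * (‖a‖ + √d))) fun j _ => ?_).trans ?_)
  · rw [norm_smul, norm_eq_abs, abs_div, abs_of_pos (mul_pos hl hσ)]
    refine (mul_le_mul_of_nonneg_left (hterm j) (by positivity)).trans_eq ?_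
    field_simp
  · rw [← Finset.sum_mul, mul_assoc W]
    exact mul_le_mul_of_nonneg_right hP.hw (by positivity)

lemma cen_esum (y : Fin m → Sp d) {X : ℝ} (hX : 0 ≤ X) : ∀ {p : ℕ} (f : Fin p → Expr κ J m),
    (∀ j, (f j).cen V c y ≤ X) → (esum f).cen V c y ≤ X
  | 0, _, _ => hX
  | _ + 1, _, h => max_le (h 0) (cen_esum y hX _ fun j => h j.succ)

/-- The centres of a surrogate. -/
lemma cen_surrE_le (hP : P.Ok η w B W) (k : κ) {σ : ℝ} (hσ : 0 < σ) (ce a : Expr κ J m)
    (y : Fin m → Sp d) {E S X : ℝ} (hce : ‖ce.eval V c y‖ ≤ E) (hcc : ce.cen V c y ≤ E)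
    (ha : ‖a.eval V c y‖ ≤ S) (hac : a.cen V c y ≤ X) (hX : E + σ * S ≤ X) :
    (surrE P k σ ce a).cen V c y ≤ X := by
  have hS : 0 ≤ S := (norm_nonneg _).trans ha
  have hσS : 0 ≤ σ * S := by positivity
  refine cen_esum y ((Expr.cen_nonneg V c a y).trans hac) _ fun j => ?_
  refine max_le ((le_trans ?_ hX)) (max_le ((hcc.trans (by linarith)).trans hX) hac)
  simp only [Expr.eval]
  refine (norm_add_le _ _).trans (add_le_add hce ?_)
  rw [norm_smul, norm_eq_abs, abs_mul, abs_of_pos hσ, mul_assoc]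
  refine mul_le_mul_of_nonneg_left ((mul_le_of_le_one_left (norm_nonneg _) ?_).trans ha) hσ.le
  rw [abs_mul, abs_of_pos hP.hlam]
  exact mul_le_one₀ (hP.hlam2.trans (by norm_num)) (abs_nonneg _) (hP.hv j)

/-- The values and centres of the rounds. -/
lemma picE_cen (hP : P.Ok η w B W) (hw0 : ∑ j, P.w j = 0) (hV : ∀ k, IsField P.L (V k))
    (k : κ) {σ : ℝ} (hσ : 0 < σ) (ce z g : Expr κ J m) (y : Fin m → Sp d)
    (hr : ang P k σ * (W * W * P.L) ≤ 1 / 8) {E S X : ℝ}
    (hce : ‖ce.eval V c y‖ ≤ E) (hcc : ce.cen V c y ≤ E)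
    (hS : 2 * (‖z.eval V c y‖ + ‖g.eval V c y‖ + √d) ≤ S) (hzc : z.cen V c y ≤ X)
    (hgc : g.cen V c y ≤ X) (hX : E + σ * S ≤ X) :
    ∀ (l : ℕ) (τ : ℝ), |τ| ≤ ang P k σ →
      (‖(picE P k σ ce z g l τ).1.eval V c y‖ ≤ S ∧ (picE P k σ ce z g l τ).1.cen V c y ≤ X) ∧
        ‖(picE P k σ ce z g l τ).2.eval V c y‖ ≤ S ∧ (picE P k σ ce z g l τ).2.cen V c y ≤ X
  | 0, _, _ => by
    have h1 := norm_nonneg (z.eval V c y)
    have h2 := norm_nonneg (g.eval V c y)
    have h3 := sqrt_nonneg (d : ℝ)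
    exact ⟨⟨by simp only [picE]; linarith, hzc⟩, by simp only [picE]; linarith, hgc⟩
  | l + 1, τ, hτ => by
    have ih := fun j => picE_cen hP hw0 hV k hσ ce z g y hr hce hcc hS hzc hgc hX l (τ * P.u j)
      (by rw [abs_mul]; exact (mul_le_of_le_one_right (abs_nonneg _) (hP.hu j)).trans hτ)
    have key : ∀ (x : Expr κ J m) (t : ℝ) (f : Fin p → Expr κ J m), |t| ≤ ang P k σ →
        2 * (‖x.eval V c y‖ + √d) ≤ S → x.cen V c y ≤ X →
        (∀ j, ‖(f j).eval V c y‖ ≤ S ∧ (f j).cen V c y ≤ X) →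
        ‖(Expr.add x (.smul t (esum fun j => .smul (P.q j) (surrE P k σ ce (f j))))).eval V c y‖ ≤
            S ∧
          (Expr.add x (.smul t (esum fun j => .smul (P.q j) (surrE P k σ ce (f j))))).cen V c y ≤
            X := by
      intro x t f ht hx hxc hf
      refine ⟨?_, max_le hxc (cen_esum y ((Expr.cen_nonneg V c x y).trans hxc) _ fun j =>
        cen_surrE_le hP k hσ ce (f j) y hce hcc (hf j).1 (hf j).2 hX)⟩
      simp only [Expr.eval, eval_esum, eval_surrE]
      refine (norm_add_le _ _).trans ?_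
      have hx0 := norm_nonneg (x.eval V c y)
      have h0 := sqrt_nonneg (d : ℝ)
      have hW0 : 0 ≤ W := zero_le_one.trans hP.hW
      have hL := hP.hL
      have hS0 : 0 ≤ S + √d := by linarith
      have h1 : ‖∑ j, P.q j • Adj.surr (V k) σ P.w (fun m => P.lam * P.v m) P.lam (ce.eval V c y)
          ((f j).eval V c y)‖ ≤ W * (W * P.L * (S + √d)) := by
        refine (norm_sum_le _ _).trans ((Finset.sum_le_sum fun j _ => ?_).trans_eq
          (Finset.sum_mul ..).symm |>.trans (mul_le_mul_of_nonneg_right hP.hq (by positivity)))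
        rw [norm_smul, norm_eq_abs]
        refine mul_le_mul_of_nonneg_left ((norm_surr_apply_le hP hw0 hV k hσ _ _).trans ?_)
          (abs_nonneg _)
        exact mul_le_mul_of_nonneg_left (add_le_add (hf j).1 le_rfl) (by positivity)
      have hang : 0 ≤ ang P k σ := (abs_nonneg t).trans ht
      have h2 : ‖t • ∑ j, P.q j • Adj.surr (V k) σ P.w (fun m => P.lam * P.v m) P.lam
          (ce.eval V c y) ((f j).eval V c y)‖ ≤ (S + √d) / 8 := by
        rw [norm_smul, norm_eq_abs]
        refine (mul_le_mul ht h1 (norm_nonneg _) hang).trans ?_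
        calc ang P k σ * (W * (W * P.L * (S + √d)))
            = ang P k σ * (W * W * P.L) * (S + √d) := by ring
          _ ≤ 1 / 8 * (S + √d) := mul_le_mul_of_nonneg_right hr hS0
          _ = _ := by ring
      linarith
    have h1 := norm_nonneg (z.eval V c y)
    have h2 := norm_nonneg (g.eval V c y)
    exact ⟨key z τ _ hτ (by linarith) hzc fun j => (ih j).2,
      key g (-τ) _ (by rwa [abs_neg]) (by linarith) hgc fun j => (ih j).1⟩

/-- **The centres of the built expressions.** -/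
theorem build_cen (hP : P.Ok η w B W) (hw0 : ∑ j, P.w j = 0) (hV : ∀ k, IsField P.L (V k)) :
    ∀ {n : ℕ} (e : Expr κ J n) (j : ℕ), e.depth ≤ j → e.Good η P.L P.sc B (B / P.lam) w →
      ∀ (i : Fin n) {m : ℕ} (r : Fin n → Fin m) (a : Expr κ J m) (y : Fin m → Sp d),
        (build P e i r a).cen V c y ≤
          max (a.cen V c y) (e.cen V c (y ∘ r) + gcn B j * (‖a.eval V c y‖ + √d)) := by
  intro n e
  induction e with
  | var l => intro j _ _ i m r a y; exact le_max_of_le_left (Expr.cen_nonneg V c a y)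
  | zero => intro j _ _ i m r a y; exact le_max_of_le_left (Expr.cen_nonneg V c a y)
  | add e f he hf =>
    intro j hj hG i m r a y
    simp only [build, Expr.cen]
    refine max_le ((he j ((le_max_left _ _).trans hj) hG.1 i r a y).trans ?_)
      ((hf j ((le_max_right _ _).trans hj) hG.2 i r a y).trans ?_)
    · exact max_le_max le_rfl (add_le_add (le_max_left _ _) le_rfl)
    · exact max_le_max le_rfl (add_le_add (le_max_right _ _) le_rfl)
  | smul t e he => intro j hj hG i m r a y; exact he j hj hG i r a y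
  | mean C e he =>
    intro j hj hG i m r a y
    obtain ⟨j, rfl⟩ : ∃ j', j = j' + 1 := ⟨j - 1, by simp only [Expr.depth] at hj; omega⟩
    simp only [Expr.depth] at hj
    simp only [build, Expr.cen]
    refine (he j (by omega) hG _ _ _ _).trans (max_le_max ?_ (add_le_add ?_ ?_))
    · rw [Expr.cen_ren]
      exact le_of_eq (congrArg _ (funext fun l => by simp))
    · exact le_of_eq (congrArg _ (funext fun l => by refine Fin.cases ?_ (fun l => ?_) l <;> simp))
    · rw [Expr.eval_ren]
      have e1 : (Fin.cons (∑ j, C j • c j) y : Fin (m + 1) → Sp d) ∘ Fin.succ = y :=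
        funext fun l => by simp
      rw [e1]
      exact mul_le_mul_of_nonneg_right (gcn_le_succ B j) (by positivity)
  | node k σ e he =>
    intro j hj hG i m r a y
    obtain ⟨j, rfl⟩ : ∃ j', j = j' + 1 := ⟨j - 1, by simp only [Expr.depth] at hj; omega⟩
    simp only [Expr.depth] at hj
    obtain ⟨hσ, hσs, hscB, -, -, -, hg⟩ := hG
    simp only [build]
    split
    · exact le_max_of_le_left (Expr.cen_nonneg V c a y)
    rename_i hne
    have hB := hP.hB
    have hT := hP.hT0
    have hσB : σ ≤ B ^ 2 := by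
      rw [sq]; exact hσs.trans (mul_le_mul_of_nonneg_left hscB (by linarith))
    have hLp : 0 < P.L := lt_of_le_of_ne hP.hL (Ne.symm hne)
    have hscp : 0 < P.sc k := by
      rcases eq_or_lt_of_le (hP.hsc k) with h | h
      · rw [← h, mul_zero] at hσs; linarith
      · exact h
    have hang : 0 < ang P k σ := by unfold ang; positivity
    have hr : ang P k σ * (W * W * P.L) ≤ 1 / 8 := by
      have hW0 : 0 ≤ W := zero_le_one.trans hP.hW
      calc ang P k σ * (W * W * P.L) = W * W * P.T * σ / P.sc k := by unfold ang; field_simp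
        _ ≤ W * W * P.T * (B * P.sc k) / P.sc k := by gcongr
        _ = W * W * B * P.T := by field_simp
        _ ≤ _ := hP.small
    set En := (Expr.node k σ e).cen V c (y ∘ r) with hEn
    have he1 : ‖e.eval V c (y ∘ r)‖ ≤ En := le_max_left _ _
    have he2 : e.cen V c (y ∘ r) ≤ En := le_max_right _ _
    set A := ‖a.eval V c y‖ + √(d : ℝ) with hA
    have hA0 : 0 ≤ A := by positivity
    set X := max (a.cen V c y) (En + gcn B (j + 1) * A) with hX
    have hg0 := gcn_nonneg B j
    have hgj : gcn B (j + 1) = 3 * gcn B j + 3 * B ^ 2 := rfl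
    have hEX : En + σ * (2 * A) ≤ En + gcn B (j + 1) * A := by
      rw [hgj]
      nlinarith [mul_le_mul_of_nonneg_right hσB hA0, mul_nonneg hg0 hA0]
    simp only [Expr.cen]
    refine max_le (cen_surrE_le hP k hσ _ a y (S := 2 * A) ?_ ?_ ?_ (le_max_left _ _)
      (hEX.trans (le_max_right _ _))) (cen_esum y ((Expr.cen_nonneg V c a y).trans
        (le_max_left _ _)) _ fun b => ?_)
    · rw [Expr.eval_ren]; exact he1
    · rw [Expr.cen_ren]; exact he2
    · have := sqrt_nonneg (d : ℝ)
      linarith [norm_nonneg (a.eval V c y)]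
    set y' : Fin (m + 1) → Sp d := Fin.cons (∑ l, (0 : Fin J → ℝ) l • c l) y with hy'
    have e0 : (∑ l, (0 : Fin J → ℝ) l • c l) = 0 := by simp
    have e1 : y' ∘ Fin.succ = y := funext fun l => by simp [y']
    have e2 : y' ∘ (Fin.succ ∘ r) = y ∘ r := funext fun l => by simp [y']
    have hp := (picE_cen hP hw0 hV k hσ (e.ren (Fin.succ ∘ r)) (.var 0) (a.ren Fin.succ) y' hr
      (E := En) (S := 2 * A) (X := max (a.cen V c y) (En + σ * (2 * A)))
      (by rw [Expr.eval_ren, e2]; exact he1) (by rw [Expr.cen_ren, e2]; exact he2)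
      (by simp [Expr.eval, Expr.eval_ren, y', A, Function.comp_def])
      ((Expr.cen_nonneg V c a y).trans (le_max_left _ _))
      (by rw [Expr.cen_ren, e1]; exact le_max_left _ _) (le_max_right _ _) P.rounds
      (ang P k σ * P.v b)
      (by rw [abs_mul, abs_of_pos hang]; exact mul_le_of_le_one_right hang.le (hP.hv b))).1
    refine (he j (by omega) hg i (Fin.succ ∘ r) _ y').trans (max_le
      (hp.2.trans (max_le_max le_rfl hEX)) (le_max_of_le_right ?_))
    rw [e2]
    refine add_le_add he2 ?_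
    calc gcn B j * (‖((picE P k σ (e.ren (Fin.succ ∘ r)) (.var 0) (a.ren Fin.succ) P.rounds
          (ang P k σ * P.v b)).1).eval V c y'‖ + √d)
        ≤ gcn B j * (2 * A + A) := by
          refine mul_le_mul_of_nonneg_left (add_le_add hp.1 ?_) hg0
          linarith [norm_nonneg (a.eval V c y)]
      _ ≤ gcn B (j + 1) * A := by
          rw [hgj]; nlinarith [mul_nonneg (sq_nonneg B) hA0]

end Vale.Agent.P347.Shift.MV
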