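import Vale.Agent.P347.Shift.Spec

/-!
# P347, MV: the expressions of transposed derivative products

`build P e i r a` is the nonlinear part of `(∂ᵢ e)†` at the argument `a`, the variables of `e`
renamed by `r`. A node contributes its surrogate at `a` for the linear part and, for the rest, the
rule of rotation: the product with the derivative of the centre at the Picard rounds, averaged.
-/

namespace Vale.Agent.P347.Shift.MV

/-- The parameters of the rules. -/
structure Par (κ : Type) (p : ℕ) where
  /-- Weights of sines and of extraction. -/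
  w : Fin p → ℝ
  /-- Their nodes. -/
  v : Fin p → ℝ
  /-- Weights of time quadrature. -/
  q : Fin p → ℝ
  /-- Their nodes. -/
  u : Fin p → ℝ
  /-- The number of rounds. -/
  rounds : ℕ
  /-- The scale of extraction. -/
  lam : ℝ
  /-- The size of the boxes. -/
  L : ℝ
  /-- The smallness of the centres. -/
  T : ℝ
  /-- The scales of the boxes. -/
  sc : κ → ℝ

variable {κ : Type} {J p m : ℕ}

/-- A finite sum of expressions. -/
def esum : {p : ℕ} → (Fin p → Expr κ J m) → Expr κ J m
  | 0, _ => .zero
  | _ + 1, f => .add (f 0) (esum fun j => f j.succ)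

/-- The surrogate of the node `k` at centre `ce`, applied to `a`. -/
noncomputable def surrE (P : Par κ p) (k : κ) (σ : ℝ) (ce a : Expr κ J m) : Expr κ J m :=
  esum fun j => .smul (P.w j / (P.lam * σ))
    (.node k (σ * √(1 - (P.lam * P.v j) ^ 2)) (.add ce (.smul (σ * (P.lam * P.v j)) a)))

/-- Picard rounds from `(z, g)`. -/
noncomputable def picE (P : Par κ p) (k : κ) (σ : ℝ) (ce z g : Expr κ J m) :
    ℕ → ℝ → Expr κ J m × Expr κ J m
  | 0, _ => (z, g)
  | l + 1, τ =>
    (.add z (.smul τ (esum fun j =>
        .smul (P.q j) (surrE P k σ ce (picE P k σ ce z g l (τ * P.u j)).2))),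
      .add g (.smul (-τ) (esum fun j =>
        .smul (P.q j) (surrE P k σ ce (picE P k σ ce z g l (τ * P.u j)).1))))

/-- The angle of rotation at a node. -/
noncomputable def ang (P : Par κ p) (k : κ) (σ : ℝ) : ℝ := σ * P.T / (P.L * P.sc k)

open Classical in
/-- The nonlinear part of the transposed derivative at the argument `a`. -/
noncomputable def build (P : Par κ p) : {n : ℕ} → Expr κ J n → Fin n →
    {m : ℕ} → (Fin n → Fin m) → Expr κ J m → Expr κ J m
  | _, .var _, _ => fun _ _ => .zero
  | _, .zero, _ => fun _ _ => .zero
  | _, .add e f, i => fun r a => .add (build P e i r a) (build P f i r a)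
  | _, .smul t e, i => fun r a => .smul t (build P e i r a)
  | _, .node k σ e, i => fun r a =>
    if P.L = 0 then .zero else
      .add (.smul (e.aff i) (surrE P k σ (e.ren r) a))
        (.smul (ang P k σ)⁻¹ (esum fun j => .smul (P.w j) (.mean 0 (build P e i (Fin.succ ∘ r)
          (picE P k σ (e.ren (Fin.succ ∘ r)) (.var 0) (a.ren Fin.succ) P.rounds
            (ang P k σ * P.v j)).1))))
  | _, .mean C e, i => fun r a =>
    .mean C (build P e i.succ (Fin.cons 0 (Fin.succ ∘ r)) (a.ren Fin.succ))

end Vale.Agent.P347.Shift.MV
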