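import Vale.Agent.P347.Shift.MV.Ren

/-!
# P347, MV: shapes of the built expressions

Rooms of the centres, nesting depth and number of constructors of `build`.
-/

namespace Vale.Agent.P347.Shift.MV

variable {κ : Type} {J p m : ℕ} {kap : Fin J → ℝ} (P : Par κ p)

/-! ### Rooms -/

lemma surrE_fill (k : κ) (σ : ℝ) {ce a : Expr κ J m} (hc : ce.Fill kap) (ha : a.Fill kap) :
    (surrE P k σ ce a).Fill kap :=
  fill_esum _ fun _ => ⟨hc, ha⟩

lemma picE_fill (k : κ) (σ : ℝ) {ce z g : Expr κ J m} (hc : ce.Fill kap) (hz : z.Fill kap)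
    (hg : g.Fill kap) : ∀ (l : ℕ) (τ : ℝ),
      (picE P k σ ce z g l τ).1.Fill kap ∧ (picE P k σ ce z g l τ).2.Fill kap
  | 0, _ => ⟨hz, hg⟩
  | l + 1, τ =>
    ⟨⟨hz, fill_esum _ fun j => surrE_fill P k σ hc (picE_fill k σ hc hz hg l (τ * P.u j)).2⟩,
      ⟨hg, fill_esum _ fun j => surrE_fill P k σ hc (picE_fill k σ hc hz hg l (τ * P.u j)).1⟩⟩

/-- The rooms of the centres still fit. -/
theorem build_fill {n : ℕ} (e : Expr κ J n) : e.Fill kap → ∀ (i : Fin n) {m : ℕ}
    (r : Fin n → Fin m) (a : Expr κ J m), a.Fill kap → (build P e i r a).Fill kap := by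
  induction e with
  | var j => intros; trivial
  | zero => intros; trivial
  | add e f he hf => intro h i m r a ha; exact ⟨he h.1 i r a ha, hf h.2 i r a ha⟩
  | smul t e he => intro h i m r a ha; exact he h i r a ha
  | mean C e he => intro h i m r a ha; exact ⟨h.1, he h.2 _ _ _ (fill_ren a ha _)⟩
  | node k σ e he =>
    intro h i m r a ha
    simp only [build]
    split
    · trivial
    refine ⟨surrE_fill P k σ (fill_ren e h r) ha, fill_esum _ fun j => ⟨by norm_num, ?_⟩⟩
    exact he h i _ _ (picE_fill P k σ (z := .var 0) (fill_ren e h _) (by trivial) (fill_ren a ha _) P.rounds _).1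

/-! ### Depth -/

lemma surrE_depth (k : κ) (σ : ℝ) {ce a : Expr κ J m} :
    (surrE P k σ ce a).depth ≤ max ce.depth a.depth + 1 :=
  depth_esum _ fun _ => le_rfl

lemma picE_depth (k : κ) (σ : ℝ) {ce z g : Expr κ J m} {S : ℕ} (hc : ce.depth ≤ S)
    (hz : z.depth ≤ S) (hg : g.depth ≤ S) : ∀ (l : ℕ) (τ : ℝ),
      (picE P k σ ce z g l τ).1.depth ≤ S + l ∧ (picE P k σ ce z g l τ).2.depth ≤ S + l
  | 0, _ => ⟨hz, hg⟩
  | l + 1, τ => by
    have key : ∀ y : Expr κ J m, y.depth ≤ S + l → (surrE P k σ ce y).depth ≤ S + (l + 1) :=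
      fun y hy => (surrE_depth P k σ).trans (by omega)
    exact ⟨max_le (by omega)
        (depth_esum _ fun j => key _ (picE_depth k σ hc hz hg l (τ * P.u j)).2),
      max_le (by omega)
        (depth_esum _ fun j => key _ (picE_depth k σ hc hz hg l (τ * P.u j)).1)⟩

/-- Each node or mean costs a bounded number of levels. -/
theorem build_depth {n : ℕ} (e : Expr κ J n) : ∀ (i : Fin n) {m : ℕ}
    (r : Fin n → Fin m) (a : Expr κ J m),
    (build P e i r a).depth ≤ max a.depth e.depth + e.depth * (P.rounds + 3) := by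
  induction e with
  | var j => intros; exact Nat.zero_le _
  | zero => intros; exact Nat.zero_le _
  | add e f he hf =>
    intro i m r a
    simp only [build, Expr.depth]
    refine max_le ((he i r a).trans ?_) ((hf i r a).trans ?_)
    · exact add_le_add (max_le_max le_rfl (le_max_left _ _))
        (Nat.mul_le_mul_right _ (le_max_left _ _))
    · exact add_le_add (max_le_max le_rfl (le_max_right _ _))
        (Nat.mul_le_mul_right _ (le_max_right _ _))
  | smul t e he => intro i m r a; exact he i r a
  | mean C e he =>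
    intro i m r a
    have h := he i.succ (Fin.cons 0 (Fin.succ ∘ r)) (a.ren Fin.succ)
    rw [depth_ren] at h
    simp only [build, Expr.depth, Nat.add_one_mul]
    omega
  | node k σ e he =>
    intro i m r a
    simp only [build]
    split
    · exact Nat.zero_le _
    simp only [Expr.depth, Nat.add_one_mul]
    refine max_le ((surrE_depth P k σ).trans ?_) (depth_esum _ fun j => ?_)
    · rw [depth_ren]; omega
    · set y := (picE P k σ (e.ren (Fin.succ ∘ r)) (.var 0) (a.ren Fin.succ) P.rounds
        (ang P k σ * P.v j)).1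
      have hy : y.depth ≤ max e.depth a.depth + P.rounds :=
        (picE_depth P k σ (S := max e.depth a.depth) (by rw [depth_ren]; omega)
          (Nat.zero_le _) (by rw [depth_ren]; omega) _ _).1
      have hin := he i (Fin.succ ∘ r) y
      simp only [Expr.depth]
      omega

/-! ### Number of constructors -/

/-- The growth of one round. -/
def shM (p : ℕ) : ℕ := 24 * (p + 1) ^ 2

/-- The growth at one node. -/
def shC (p rounds : ℕ) : ℕ := 16 * (p + 1) * shM p ^ rounds

lemma one_le_shM_pow (p l : ℕ) : 1 ≤ shM p ^ l :=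
  Nat.one_le_pow _ _ (by unfold shM; positivity)

lemma surrE_size (k : κ) (σ : ℝ) {ce a : Expr κ J m} {c A : ℕ} (hc : ce.size ≤ c)
    (ha : a.size ≤ A) : (surrE P k σ ce a).size ≤ p * (c + A + 5) + 1 :=
  size_esum (S := c + A + 4) _ fun _ => by simp only [Expr.size]; omega

lemma picE_size (k : κ) (σ : ℝ) {ce z g : Expr κ J m} {S : ℕ} (hz : z.size ≤ S)
    (hg : g.size ≤ S) : ∀ (l : ℕ) (τ : ℝ),
      (picE P k σ ce z g l τ).1.size ≤ shM p ^ l * (S + ce.size) ∧
        (picE P k σ ce z g l τ).2.size ≤ shM p ^ l * (S + ce.size)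
  | 0, _ => by simp only [picE, pow_zero, one_mul]; omega
  | l + 1, τ => by
    set c := ce.size
    set X := shM p ^ l * (S + c)
    have hX : S + c ≤ X := Nat.le_mul_of_pos_left _ (one_le_shM_pow p l)
    have hM : 12 * (p + 1) ^ 2 * (X + X) ≤ shM p ^ (l + 1) * (S + c) :=
      le_of_eq (by simp only [X, shM]; ring)
    have key : ∀ (x : Expr κ J m) (t : ℝ) (y : Fin p → Expr κ J m), x.size ≤ S →
        (∀ j, (y j).size ≤ X) →
        (Expr.add x (.smul t (esum fun j => .smul (P.q j) (surrE P k σ ce (y j))))).size ≤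
          shM p ^ (l + 1) * (S + c) := by
      intro x t y hx hy
      have h : (esum fun j => Expr.smul (P.q j) (surrE P k σ ce (y j))).size ≤
          p * (p * (c + X + 5) + 2 + 1) + 1 :=
        size_esum (S := p * (c + X + 5) + 2) _ fun j => by
          have := surrE_size P k σ (le_refl c) (hy j)
          simp only [Expr.size]
          omega
      refine le_trans ?_ hM
      simp only [Expr.size]
      nlinarith [one_le_size x, one_le_size ce]
    exact ⟨key z τ _ hz fun j => (picE_size k σ hz hg l (τ * P.u j)).2,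
      key g (-τ) _ hg fun j => (picE_size k σ hz hg l (τ * P.u j)).1⟩

/-- The size grows polynomially, with the depth as exponent. -/
theorem build_size {n : ℕ} (e : Expr κ J n) : ∀ (i : Fin n) {m : ℕ}
    (r : Fin n → Fin m) (a : Expr κ J m),
    (build P e i r a).size ≤ (shC p P.rounds * e.size) ^ (e.depth + 1) * a.size := by
  have hM : 1 ≤ shM p ^ P.rounds := one_le_shM_pow p P.rounds
  set C := shC p P.rounds
  have hC : 16 ≤ C := by
    simp only [C, shC]
    nlinarith
  have one : ∀ {n : ℕ} (e : Expr κ J n) (D : ℕ), 1 ≤ (C * e.size) ^ D :=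
    fun e D => Nat.one_le_pow _ _ (Nat.mul_pos (by omega) (one_le_size e))
  induction e with
  | var j => intro i m r a; exact Nat.one_le_iff_ne_zero.2 (Nat.mul_ne_zero
      (Nat.one_le_iff_ne_zero.1 (one _ _)) (Nat.one_le_iff_ne_zero.1 (one_le_size a)))
  | zero => intro i m r a; exact Nat.one_le_iff_ne_zero.2 (Nat.mul_ne_zero
      (Nat.one_le_iff_ne_zero.1 (one _ _)) (Nat.one_le_iff_ne_zero.1 (one_le_size a)))
  | smul t e he =>
    intro i m r a
    have h := he i r a
    have hp := pow_add_pow_le (Nat.zero_le (C * e.size)) (Nat.zero_le C) (Nat.succ_ne_zero e.depth)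
    simp only [build, Expr.size, Expr.depth, Nat.mul_add, Nat.mul_one]
    calc (build P e i r a).size + 1 ≤ ((C * e.size) ^ (e.depth + 1) + C ^ (e.depth + 1)) * a.size := by
          rw [Nat.add_mul]
          exact add_le_add h (Nat.mul_pos (pow_pos (by omega) _) (one_le_size a))
      _ ≤ _ := Nat.mul_le_mul_right _ hp
  | add e f he hf =>
    intro i m r a
    simp only [build, Expr.size, Expr.depth]
    set D := max e.depth f.depth + 1
    have h1 := (he i r a).trans (Nat.mul_le_mul_right _ (Nat.pow_le_pow_right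
      (Nat.mul_pos (by omega) (one_le_size e)) (show e.depth + 1 ≤ D by omega)))
    have h2 := (hf i r a).trans (Nat.mul_le_mul_right _ (Nat.pow_le_pow_right
      (Nat.mul_pos (by omega) (one_le_size f)) (show f.depth + 1 ≤ D by omega)))
    calc _ ≤ (C * e.size) ^ D * a.size + (C * f.size) ^ D * a.size + C ^ D * a.size := by
          have : 1 ≤ C ^ D * a.size := Nat.mul_pos (pow_pos (by omega) _) (one_le_size a)
          omega
      _ = ((C * e.size) ^ D + (C * f.size) ^ D + C ^ D) * a.size := by ring
      _ ≤ _ := by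
          refine Nat.mul_le_mul_right _ ((add_le_add (pow_add_pow_le (Nat.zero_le _)
            (Nat.zero_le _) (by omega)) le_rfl).trans ((pow_add_pow_le (Nat.zero_le _)
            (Nat.zero_le _) (by omega)).trans_eq ?_))
          rw [Nat.mul_add, Nat.mul_add, Nat.mul_one]
  | mean c e he =>
    intro i m r a
    have h := he i.succ (Fin.cons 0 (Fin.succ ∘ r)) (a.ren Fin.succ)
    rw [size_ren] at h
    simp only [build, Expr.size, Expr.depth]
    set T := (C * e.size) ^ (e.depth + 1)
    have hT : 1 ≤ T * a.size := Nat.mul_pos (one e _) (one_le_size a)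
    calc _ ≤ C * (e.size + 1) * (T * a.size) := by
          have h2 : 2 ≤ C * (e.size + 1) := by nlinarith
          have h3 := Nat.mul_le_mul_right (T * a.size) h2
          omega
      _ ≤ C * (e.size + 1) * ((C * (e.size + 1)) ^ (e.depth + 1) * a.size) :=
          Nat.mul_le_mul_left _ (Nat.mul_le_mul_right _
            (Nat.pow_le_pow_left (Nat.mul_le_mul_left _ (by omega)) _))
      _ = _ := by ring
  | node k σ e he =>
    intro i m r a
    simp only [build]
    split
    · exact Nat.mul_pos (one (Expr.node k σ e) _) (one_le_size a)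
    set c := e.size
    set A := a.size
    have hc : 1 ≤ c := one_le_size e
    have hA : 1 ≤ A := one_le_size a
    set T := (C * c) ^ (e.depth + 1) * (c * A)
    have hs := surrE_size P k σ (ce := e.ren r) (a := a) (c := c) (A := A) (size_ren e r).le le_rfl
    have hT : c * A ≤ T := Nat.le_mul_of_pos_left _ (one e _)
    set X := shM p ^ P.rounds
    have hb : ∀ j : Fin p, (Expr.smul (P.w j) (.mean 0 (build P e i (Fin.succ ∘ r)
        (picE P k σ (e.ren (Fin.succ ∘ r)) (.var 0) (a.ren Fin.succ) P.rounds
          (ang P k σ * P.v j)).1))).size ≤ 2 * X * T + 2 := by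
      intro j
      have hy := (picE_size P k σ (ce := e.ren (Fin.succ ∘ r)) (z := .var 0)
        (g := a.ren Fin.succ) (S := A) hA (size_ren a _).le P.rounds (ang P k σ * P.v j)).1
      rw [size_ren] at hy
      have hy' : X * (A + c) ≤ X * (2 * (c * A)) :=
        Nat.mul_le_mul_left _ (by nlinarith)
      have := (he i (Fin.succ ∘ r) _).trans (Nat.mul_le_mul_left _ (hy.trans hy'))
      simp only [Expr.size]
      have e1 : (C * c) ^ (e.depth + 1) * (X * (2 * (c * A))) = 2 * X * T := by
        simp only [T]; ring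
      omega
    have hsum := size_esum _ hb
    have hC' : C = 16 * (p + 1) * X := rfl
    simp only [Expr.size, Expr.depth]
    calc _ ≤ C * T := by
          have h1 : c + A ≤ 2 * T := by nlinarith
          have h2 : 1 ≤ T := le_trans (Nat.mul_pos hc hA) hT
          have h3 : X * T ≥ T := Nat.le_mul_of_pos_left _ hM
          rw [hC', Nat.mul_assoc (16 * (p + 1))]
          nlinarith
      _ = (C * c) ^ (e.depth + 1) * (C * c) * A := by simp only [T]; ring
      _ ≤ _ := by
          rw [← pow_succ]
          exact Nat.mul_le_mul_right _ (Nat.pow_le_pow_left (Nat.mul_le_mul_left _ (by omega)) _)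

end Vale.Agent.P347.Shift.MV
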