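import Vale.Agent.P347.Shift.MV.Cen
import Vale.Agent.P347.Shift.MV.Shape
import Vale.Agent.P347.Shift.SyntaxSize

/-!
# P347, MV: the statement `MVSpec`
-/

open MeasureTheory ProbabilityTheory Real
open ContinuousLinearMap (adjoint)
open scoped RealInnerProductSpace ENNReal

namespace Vale.Agent.P347.Shift

open Quarter

namespace MV

variable {κ : Type} {J n d : ℕ}

/-- The derivative in one variable is the syntactic one. -/
lemma fderiv_update {V : κ → Sp d → Sp d} {L : ℝ} (hL : 0 ≤ L) (hV : ∀ k, IsField L (V k))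
    (c : Fin J → Sp d) (e : Expr κ J n) (i : Fin n) (x : Fin n → Sp d) :
    fderiv ℝ (fun y => e.eval V c (Function.update x i y)) (x i) =
      (e.deriv i).eval V (fun k => fderiv ℝ (V k)) c x := by
  have hB := isBoxes_of_isField hL hV
  have h := (e.hasFDerivAt_eval (c := c) hB (Function.update x i (x i))).comp (x i)
    (hasFDerivAt_update (𝕜 := ℝ) x (x i))
  rw [Function.update_eq_self] at h
  change fderiv ℝ (e.eval V c ∘ Function.update x i) (x i) = _
  rw [h.fderiv]
  ext v : 1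
  simp only [Expr.jac, ContinuousLinearMap.comp_apply, _root_.sum_apply,
    ContinuousLinearMap.proj_apply, ContinuousLinearMap.pi_apply]
  rw [Finset.sum_eq_single i (fun b _ hb => by simp [hb]) (by simp)]
  simp

variable {p : ℕ} {η w B W C εN : ℝ} {M D : ℕ} {P : Par κ p}

/-- The expression of the transposed derivative product. -/
noncomputable def mvE (P : Par κ p) (e : Expr κ J n) (i : Fin n) : Expr κ J (n + 1) :=
  .add (.smul (e.aff i) (.var 0)) (build P e i Fin.succ (.var 0))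

lemma mvE_depth (e : Expr κ J n) (i : Fin n) (hD : e.depth ≤ D) :
    (mvE P e i).depth ≤ D + D * (P.rounds + 3) := by
  have h := build_depth P e i Fin.succ (Expr.var 0)
  simp only [Expr.depth, Nat.zero_max] at h
  simp only [mvE, Expr.depth, Nat.zero_max]
  exact h.trans (add_le_add hD (Nat.mul_le_mul_right _ hD))

lemma mvE_size (e : Expr κ J n) (i : Fin n) (hD : e.depth ≤ D) :
    ((mvE P e i).size : ℝ) ≤
      ((shC p P.rounds : ℝ) ^ (D + 1) + 3) * (e.size : ℝ) ^ (D + 1) := by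
  have hS1 : 1 ≤ shC p P.rounds := by
    unfold shC
    exact Nat.mul_pos (by omega) (one_le_shM_pow _ _)
  have h5 := (build_size P e i Fin.succ (Expr.var 0)).trans (Nat.mul_le_mul_right _
    (Nat.pow_le_pow_right (Nat.mul_pos hS1 (one_le_size e))
      (show e.depth + 1 ≤ D + 1 by omega)))
  simp only [Expr.size, mul_one] at h5
  have h6 : (mvE P e i).size ≤ (shC p P.rounds ^ (D + 1) + 3) * e.size ^ (D + 1) := by
    have h7 : 1 ≤ e.size ^ (D + 1) := Nat.one_le_pow _ _ (one_le_size e)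
    rw [mul_pow] at h5
    simp only [mvE, Expr.size, Nat.add_mul]
    omega
  exact_mod_cast h6

lemma mvE_aff (e : Expr κ J n) (i : Fin n) :
    (mvE P e i).aff = Fin.cons (e.aff i) 0 := by
  funext l
  simp only [mvE, Expr.aff, build_aff, add_zero]
  refine Fin.cases ?_ (fun l => ?_) l
  · simp
  · simp [(Fin.succ_ne_zero l).symm]

lemma mvE_good (hP : P.Ok η w B W) (hη : 0 < η) (e : Expr κ J n) (i : Fin n) (hD : e.depth ≤ D)
    (hG : e.Good η P.L P.sc B (B / P.lam) w) :
    (mvE P e i).Good η P.L P.sc (bnd B W D) (bnd B W D / P.lam) w ∧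
      (mvE P e i).sm P.L P.sc ≤ grw B W D D / P.lam ^ 2 * e.sm P.L P.sc := by
  have hag : ArgOk P η w (bnd B W D) (gam B W D D) (Expr.var 0 : Expr κ J (n + 1)) :=
    ⟨(sum_abs_aff_var _).le, by
      simp only [Expr.sm]
      have := gam_nonneg (B := B) (W := W) D D
      have := hP.hT0
      have := hP.hlam
      positivity, trivial⟩
  obtain ⟨h1, h2⟩ := build_ok hP hη D e D hD le_rfl hG i Fin.succ _ hag
  refine ⟨⟨trivial, h1⟩, ?_⟩
  simp only [mvE, Expr.sm, mul_zero, zero_add]
  exact h2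

variable {V : κ → Sp d → Sp d} {c : Fin J → Sp d}

lemma mvE_err (hP : P.Ok η w B W) (hR : RuleOk P B C εN d M) (hV : ∀ k, IsField P.L (V k))
    (e : Expr κ J n) (i : Fin n) (hD : e.depth ≤ D) (hG : e.Good η P.L P.sc B (B / P.lam) w)
    (x : Fin n → Sp d) :
    ∫⁻ g, ENNReal.ofReal (‖(mvE P e i).eval V c (Fin.cons g x) - adjoint
        (fderiv ℝ (fun y => e.eval V c (Function.update x i y)) (x i)) g‖ ^ 2) ∂gd d ≤
      ENNReal.ofReal ((kap0 B W C D * εN * e.sm P.L P.sc * √d) ^ 2) := by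
  obtain ⟨-, -, herr⟩ := sem_ok (c := c) hP hR hV e D hD hG i x
  have e1 : ∀ g, (Fin.cons g x : Fin (n + 1) → Sp d) ∘ Fin.succ = x := fun g =>
    funext fun l => by simp
  have he : ∀ g, (mvE P e i).eval V c (Fin.cons g x) -
      adjoint (fderiv ℝ (fun y => e.eval V c (Function.update x i y)) (x i)) g =
      fsem P V c e i x g - adjoint ((e.deriv i).eval V (fun k => fderiv ℝ (V k)) c x -
        e.aff i • ContinuousLinearMap.id ℝ (Sp d)) g := by
    intro g
    rw [fderiv_update hP.hL hV]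
    simp only [mvE, Expr.eval, eval_build, Fin.cons_zero, e1, map_sub, map_smulₛₗ,
      ContinuousLinearMap.adjoint_id]
    simp
    abel
  simp only [he, ENNReal.ofReal_pow (norm_nonneg _), ofReal_norm]
  rw [← Adj.sq_eLpNorm]
  refine (pow_le_pow_left' herr 2).trans_eq ?_
  have hC0 : 0 ≤ C := zero_le_one.trans hR.hC
  have := kap0_nonneg (C := C) (zero_le_one.trans hP.hB) (zero_le_one.trans hP.hW) hC0 D
  have := sm_nonneg hP.hL hP.hsc e
  have : 0 ≤ εN := (pow_nonneg hP.hlam.le _).trans hR.err1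
  rw [← ENNReal.ofReal_pow (by positivity)]

lemma mvE_cen (hP : P.Ok η w B W) (hw0 : ∑ j, P.w j = 0) (hV : ∀ k, IsField P.L (V k))
    (e : Expr κ J n) (i : Fin n) (hD : e.depth ≤ D) (hG : e.Good η P.L P.sc B (B / P.lam) w)
    (x : Fin n → Sp d) (g : Sp d) :
    (mvE P e i).cen V c (Fin.cons g x) ≤ e.cen V c x + gcn B D * (‖g‖ + √d) := by
  have hbc := build_cen (c := c) hP hw0 hV e D hD hG i Fin.succ (Expr.var 0) (Fin.cons g x)
  have e1 : (Fin.cons g x : Fin (n + 1) → Sp d) ∘ Fin.succ = x := funext fun l => by simp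
  rw [e1] at hbc
  simp only [Expr.cen, Expr.eval, Fin.cons_zero] at hbc
  have h0 : 0 ≤ e.cen V c x + gcn B D * (‖g‖ + √d) :=
    add_nonneg (Expr.cen_nonneg V c e x) (mul_nonneg (gcn_nonneg B D) (by positivity))
  simp only [mvE, Expr.cen]
  exact max_le h0 (hbc.trans (max_le h0 le_rfl))

end MV

open MV in
/-- **Products with transposed derivatives.** -/
theorem mvSpec (K : ℕ) : MVSpec K := by
  intro D N B
  have ha : 0 < pA K := by unfold pA; positivity
  set M : ℕ := max (16 * N) ⌈(N : ℝ) / pA K⌉₊ with hMdef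
  obtain ⟨cw, cv, cq, cu, C0, hC0, hv, hu, hw0, hrule⟩ := Adj.exists_node_rule M
  set B1 : ℝ := max B 1
  set W : ℝ := max 1 (max (∑ j, |cw j|) (∑ j, |cq j|))
  have hB1 : 1 ≤ B1 := le_max_right _ _
  have hW1 : 1 ≤ W := le_max_left _ _
  set B' : ℝ := max (bnd B1 W D) B1
  refine ⟨D + D * (M + 3), D + 1, B', fun θ hθ => ?_⟩
  set ε0 : ℝ := 1 / (8 * W ^ 2 * B1 * C0) with hε0
  have hε0' : 0 < ε0 := by positivity
  set η₀ : ℝ := min 1 (min ((1 / 2 : ℝ) ^ (1 / pA K)) (ε0 ^ 16))
  set cS : ℝ := (shC (M + 2) M : ℝ) ^ (D + 1) + 3 with hcS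
  set cE : ℝ := kap0 B1 W C0 D * (B1 ^ M + B1 + 1) with hcE
  set C : ℝ := cS + grw B1 W D D + cE + gcn B1 D + 1 with hC
  have h1 : 0 ≤ cS := by positivity
  have h2 : 0 ≤ grw B1 W D D := grw_nonneg hB1 hW1 D D
  have h3 : 0 ≤ cE := by
    have := kap0_nonneg (C := C0) (zero_le_one.trans hB1) (zero_le_one.trans hW1)
      (zero_le_one.trans hC0) D
    positivity
  have h4 : 0 ≤ gcn B1 D := gcn_nonneg B1 D
  refine ⟨C, η₀, by positivity, ?_⟩
  intro d J n κ η L sc e i w hd hη hη0 hL hL4 hsc hw hw2 hD hG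
  have hη1 : η ≤ 1 := hη0.trans (min_le_left _ _)
  set lam : ℝ := η ^ pA K with hlamdef
  have hlam : 0 < lam := rpow_pos_of_pos hη _
  have hlam2 : lam ≤ 1 / 2 := by
    refine (rpow_le_rpow hη.le (hη0.trans ((min_le_right _ _).trans (min_le_left _ _)))
      ha.le).trans_eq ?_
    rw [← rpow_mul (by norm_num), one_div_mul_cancel ha.ne', rpow_one]
  set T : ℝ := η ^ w with hTdef
  have hT0 : 0 < T := rpow_pos_of_pos hη _
  have hT1 : T ≤ 1 := rpow_le_one hη.le hη1 (by linarith)
  have hTε : T ≤ ε0 := by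
    refine (rpow_le_rpow_of_exponent_ge hη hη1 hw).trans ?_
    refine (rpow_le_rpow hη.le (hη0.trans ((min_le_right _ _).trans (min_le_right _ _)))
      (by norm_num)).trans_eq ?_
    rw [← rpow_natCast, ← rpow_mul hε0'.le]
    norm_num
  have hneg : η ^ (-pA K) = 1 / lam := by rw [rpow_neg hη.le, one_div]
  have hG1 : e.Good η L sc B1 (B1 / lam) w :=
    good_mono (P := ⟨cw, cv, cq, cu, M, lam, L, T, sc⟩) (le_max_left _ _) (by
      rw [hneg, mul_one_div]
      exact div_le_div_of_nonneg_right (le_max_left _ _) hlam.le) hη.le hsc e hG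
  set P : Par κ (M + 2) := ⟨cw, cv, cq, cu, M, lam, L, T, sc⟩ with hPdef
  have hsmall : W * W * B1 * T ≤ 1 / 8 := by
    refine (mul_le_mul_of_nonneg_left hTε (by positivity)).trans ?_
    rw [hε0, mul_one_div, div_le_iff₀ (by positivity)]
    nlinarith [mul_le_mul_of_nonneg_left hC0 (show 0 ≤ W * W * B1 by positivity)]
  have hangle : B1 * T * C0 ≤ 1 := by
    refine (mul_le_mul_of_nonneg_right (mul_le_mul_of_nonneg_left hTε (by positivity))
      (by positivity)).trans ?_
    rw [hε0, mul_one_div, div_mul_eq_mul_div, div_le_one (by positivity)]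
    calc B1 * C0 = 1 * (B1 * C0) := (one_mul _).symm
      _ ≤ 8 * W ^ 2 * (B1 * C0) := mul_le_mul_of_nonneg_right
          (by nlinarith [hW1]) (by positivity)
      _ = _ := by ring
  have hP : P.Ok η w B1 W :=
    { hL := hL, hsc := hsc, hlam := hlam, hlam2 := hlam2, hT := rfl, hT0 := hT0, hT1 := hT1,
      hB := hB1, hW := hW1, hw := (le_max_left _ _).trans (le_max_right _ _),
      hq := (le_max_right _ _).trans (le_max_right _ _), hv := hv, hu := hu, small := hsmall }
  have hlamN : lam ^ (M + 1) ≤ η ^ N := by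
    rw [hlamdef, ← rpow_natCast, ← rpow_mul hη.le, ← rpow_natCast η N]
    refine rpow_le_rpow_of_exponent_ge hη hη1 ?_
    have h := (div_le_iff₀ ha).1 ((Nat.le_ceil ((N : ℝ) / pA K)).trans
      (Nat.cast_le.2 (le_max_right (16 * N) _)))
    rw [← hMdef] at h
    push_cast
    nlinarith
  have hTN : T ^ M ≤ η ^ N := by
    rw [hTdef, ← rpow_natCast, ← rpow_mul hη.le, ← rpow_natCast η N]
    refine rpow_le_rpow_of_exponent_ge hη hη1 ?_
    have h : ((16 * N : ℕ) : ℝ) ≤ (M : ℝ) := Nat.cast_le.2 (le_max_left _ _)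
    push_cast at h
    nlinarith [mul_le_mul_of_nonneg_right hw (Nat.cast_nonneg M : (0 : ℝ) ≤ M)]
  have hR : RuleOk P B1 C0 ((B1 ^ M + B1 + 1) * η ^ N) d M := by
    refine ⟨hrule d, hC0, ?_, ?_, hangle⟩
    · exact hlamN.trans (le_mul_of_one_le_left (by positivity)
        (by linarith [pow_nonneg (zero_le_one.trans hB1) M]))
    · show (B1 * T) ^ M + B1 * T * lam ^ (M + 1) ≤ _
      calc (B1 * T) ^ M + B1 * T * lam ^ (M + 1)
          ≤ B1 ^ M * η ^ N + B1 * 1 * η ^ N := by
            rw [mul_pow]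
            gcongr
        _ ≤ _ := by rw [mul_one, add_mul, add_mul, one_mul]; linarith [pow_pos hη N]
  refine ⟨mvE P e i, mvE_depth e i hD, ?_, ?_, ?_, mvE_aff e i, ?_, ?_⟩
  · refine (mvE_size e i hD).trans (mul_le_mul_of_nonneg_right ?_ (by positivity))
    have h9 : 1 ≤ η ^ (-θ) := one_le_rpow_of_pos_of_le_one_of_nonpos hη hη1 (by linarith)
    calc _ = cS * 1 := (mul_one _).symm
      _ ≤ C * η ^ (-θ) :=
        mul_le_mul (by rw [hC]; linarith) h9 zero_le_one (by positivity)
  · refine Expr.Good.mono hη hη1 ?_ (le_max_left _ _) ?_ (by linarith) hsc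
      (mvE_good hP hη e i hD hG1).1
    · have := gam_nonneg (B := B1) (W := W) D 0
      unfold bnd
      positivity
    · rw [hneg, mul_one_div]
      exact div_le_div_of_nonneg_right (le_max_left _ _) hlam.le
  · exact fun kap hF => ⟨trivial, build_fill P e hF i Fin.succ _ trivial⟩
  · have hl2 : η ^ (-(2 * pA K)) = 1 / lam ^ 2 := by
      rw [rpow_neg hη.le, one_div, mul_comm, rpow_mul hη.le, rpow_two]
    rw [hl2, mul_one_div]
    refine (mvE_good hP hη e i hD hG1).2.trans (mul_le_mul_of_nonneg_right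
      (div_le_div_of_nonneg_right ?_ (sq_nonneg _)) (sm_nonneg hL hsc e))
    rw [hC]; linarith
  · intro V hV c x
    refine ⟨(mvE_err hP hR hV e i hD hG1 x).trans (ENNReal.ofReal_le_ofReal ?_), fun g => ?_⟩
    · have hs0 := sm_nonneg hL hsc e
      have hk0 := kap0_nonneg (C := C0) (zero_le_one.trans hB1) (zero_le_one.trans hW1)
        (zero_le_one.trans hC0) D
      refine pow_le_pow_left₀ (by positivity) ?_ 2
      rw [← mul_assoc (kap0 B1 W C0 D), ← hcE]
      gcongr
      rw [hC]; linarith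
    · refine (mvE_cen (c := c) hP hw0 hV e i hD hG1 x g).trans ?_
      have hcn := Expr.cen_nonneg V c e x
      have h9 : 1 ≤ η ^ (-pA K) := one_le_rpow_of_pos_of_le_one_of_nonpos hη hη1 (by linarith)
      have hS : 0 ≤ √(d : ℝ) + ‖g‖ + e.cen V c x := by positivity
      have hC0' : 0 ≤ C := by rw [hC]; linarith
      have hC1 : gcn B1 D ≤ C := by rw [hC]; linarith
      have hC2 : 1 ≤ C := by rw [hC]; linarith
      have hCC : C ≤ C * η ^ (-pA K) := le_mul_of_one_le_right hC0' h9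
      refine le_trans ?_ (mul_le_mul_of_nonneg_right hCC hS)
      have h10 := mul_le_mul_of_nonneg_right hC1 (show 0 ≤ ‖g‖ + √(d : ℝ) by positivity)
      have h11 : e.cen V c x ≤ C * e.cen V c x := le_mul_of_one_le_left hcn hC2
      clear_value C
      linarith

end Vale.Agent.P347.Shift
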