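import Vale.Agent.P347.Shift.MV.Defs

/-!
# P347, MV: renamings and sums
-/

open Real

namespace Vale.Agent.P347.Shift.MV

variable {κ : Type} {J p n m : ℕ} {η L B R w : ℝ} {sc : κ → ℝ} {kap : Fin J → ℝ}

lemma aff_ren (e : Expr κ J n) : ∀ {m : ℕ} (r : Fin n → Fin m) (i : Fin m),
    (e.ren r).aff i = ∑ j, if r j = i then e.aff j else 0 := by
  induction e with
  | var j =>
    intro m r i
    rw [Finset.sum_eq_single j (fun b _ hb => by simp [Expr.aff, Ne.symm hb]) (by simp)]
    by_cases h : r j = i <;> simp [Expr.ren, Expr.aff, h]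
  | zero => intro m r i; simp [Expr.ren, Expr.aff]
  | add e f he hf =>
    intro m r i
    simp only [Expr.ren, Expr.aff, he, hf, ← Finset.sum_add_distrib]
    exact Finset.sum_congr rfl fun j _ => by split <;> simp
  | smul t e he =>
    intro m r i
    simp only [Expr.ren, Expr.aff, he, Finset.mul_sum]
    exact Finset.sum_congr rfl fun j _ => by split <;> simp
  | node k σ e he => intro m r i; simp [Expr.ren, Expr.aff]
  | mean C e he =>
    intro m r i
    simp only [Expr.ren, Expr.aff, he, Fin.sum_univ_succ, Fin.cons_zero, Fin.cons_succ,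
      Function.comp_apply, Fin.succ_inj]
    simp [(Fin.succ_ne_zero i).symm]

lemma sum_abs_aff_ren_le (e : Expr κ J n) (r : Fin n → Fin m) :
    ∑ i, |(e.ren r).aff i| ≤ ∑ j, |e.aff j| := by
  calc ∑ i, |(e.ren r).aff i| ≤ ∑ i, ∑ j, if r j = i then |e.aff j| else 0 :=
        Finset.sum_le_sum fun i _ => by
          rw [aff_ren]
          refine (Finset.abs_sum_le_sum_abs _ _).trans_eq (Finset.sum_congr rfl fun j _ => ?_)
          split <;> simp
    _ = ∑ j, |e.aff j| := by rw [Finset.sum_comm]; simp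

lemma sm_ren (e : Expr κ J n) : ∀ {m : ℕ} (r : Fin n → Fin m),
    (e.ren r).sm L sc = e.sm L sc := by
  induction e with
  | var j => intro m r; rfl
  | zero => intro m r; rfl
  | add e f he hf => intro m r; simp [Expr.ren, Expr.sm, he, hf]
  | smul t e he => intro m r; simp [Expr.ren, Expr.sm, he]
  | node k σ e he => intro m r; simp [Expr.ren, Expr.sm, he]
  | mean C e he =>
    intro m r
    simp only [Expr.ren, Expr.sm, he, aff_ren, Fin.sum_univ_succ, Fin.cons_zero, Fin.cons_succ,
      Function.comp_apply]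
    simp [Fin.succ_ne_zero]

lemma good_ren (e : Expr κ J n) : e.Good η L sc B R w → ∀ {m : ℕ} (r : Fin n → Fin m),
    (e.ren r).Good η L sc B R w := by
  induction e with
  | var j => intro _ m r; trivial
  | zero => intro _ m r; trivial
  | add e f he hf => intro h m r; exact ⟨he h.1 r, hf h.2 r⟩
  | smul t e he => intro h m r; exact he h r
  | node k σ e he =>
    intro h m r
    exact ⟨h.1, h.2.1, h.2.2.1, (sum_abs_aff_ren_le e r).trans h.2.2.2.1,
      (sum_abs_aff_ren_le e r).trans h.2.2.2.2.1, (sm_ren e r).trans_le h.2.2.2.2.2.1,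
      he h.2.2.2.2.2.2 r⟩
  | mean C e he => intro h m r; exact he h _

lemma fill_ren (e : Expr κ J n) : e.Fill kap → ∀ {m : ℕ} (r : Fin n → Fin m),
    (e.ren r).Fill kap := by
  induction e with
  | var j => intro _ m r; trivial
  | zero => intro _ m r; trivial
  | add e f he hf => intro h m r; exact ⟨he h.1 r, hf h.2 r⟩
  | smul t e he => intro h m r; exact he h r
  | node k σ e he => intro h m r; exact he h r
  | mean C e he => intro h m r; exact ⟨h.1, he h.2 _⟩

lemma depth_ren (e : Expr κ J n) : ∀ {m : ℕ} (r : Fin n → Fin m),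
    (e.ren r).depth = e.depth := by
  induction e with
  | var j => intro m r; rfl
  | zero => intro m r; rfl
  | add e f he hf => intro m r; simp [Expr.ren, Expr.depth, he, hf]
  | smul t e he => intro m r; simp [Expr.ren, Expr.depth, he]
  | node k σ e he => intro m r; simp [Expr.ren, Expr.depth, he]
  | mean C e he => intro m r; simp [Expr.ren, Expr.depth, he]

lemma size_ren (e : Expr κ J n) : ∀ {m : ℕ} (r : Fin n → Fin m),
    (e.ren r).size = e.size := by
  induction e with
  | var j => intro m r; rfl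
  | zero => intro m r; rfl
  | add e f he hf => intro m r; simp [Expr.ren, Expr.size, he, hf]
  | smul t e he => intro m r; simp [Expr.ren, Expr.size, he]
  | node k σ e he => intro m r; simp [Expr.ren, Expr.size, he]
  | mean C e he => intro m r; simp [Expr.ren, Expr.size, he]

lemma one_le_size (e : Expr κ J n) : 1 ≤ e.size := by
  cases e <;> simp [Expr.size]

lemma sm_nonneg (hL : 0 ≤ L) (hsc : ∀ k, 0 ≤ sc k) (e : Expr κ J n) : 0 ≤ e.sm L sc := by
  induction e with
  | var j => exact le_rfl
  | zero => exact le_rfl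
  | add e f he hf => exact add_nonneg he hf
  | smul t e he => exact mul_nonneg (abs_nonneg t) he
  | node k σ e he => exact mul_nonneg hL (add_nonneg (hsc k) he)
  | mean C e he => exact add_nonneg he (abs_nonneg _)

lemma sum_abs_aff_var (j : Fin n) : ∑ i, |(Expr.var j : Expr κ J n).aff i| = 1 := by
  simp [Expr.aff, apply_ite abs]

/-! ### Sums -/

lemma eval_esum {d : ℕ} (V : κ → Quarter.Sp d → Quarter.Sp d) (c : Fin J → Quarter.Sp d)
    (y : Fin m → Quarter.Sp d) : ∀ {p : ℕ} (f : Fin p → Expr κ J m),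
      (esum f).eval V c y = ∑ j, (f j).eval V c y
  | 0, f => by simp [esum, Expr.eval]
  | p + 1, f => by simp [esum, Expr.eval, eval_esum V c y fun j => f j.succ, Fin.sum_univ_succ]

lemma aff_esum (i : Fin m) : ∀ {p : ℕ} (f : Fin p → Expr κ J m),
    (esum f).aff i = ∑ j, (f j).aff i
  | 0, f => by simp [esum, Expr.aff]
  | p + 1, f => by simp [esum, Expr.aff, aff_esum i fun j => f j.succ, Fin.sum_univ_succ]

lemma sm_esum : ∀ {p : ℕ} (f : Fin p → Expr κ J m),
    (esum f).sm L sc = ∑ j, (f j).sm L sc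
  | 0, f => by simp [esum, Expr.sm]
  | p + 1, f => by simp [esum, Expr.sm, sm_esum fun j => f j.succ, Fin.sum_univ_succ]

lemma good_esum : ∀ {p : ℕ} (f : Fin p → Expr κ J m), (∀ j, (f j).Good η L sc B R w) →
    (esum f).Good η L sc B R w
  | 0, _, _ => trivial
  | _ + 1, _, h => ⟨h 0, good_esum _ fun j => h j.succ⟩

lemma fill_esum : ∀ {p : ℕ} (f : Fin p → Expr κ J m), (∀ j, (f j).Fill kap) →
    (esum f).Fill kap
  | 0, _, _ => trivial
  | _ + 1, _, h => ⟨h 0, fill_esum _ fun j => h j.succ⟩

lemma depth_esum {D : ℕ} : ∀ {p : ℕ} (f : Fin p → Expr κ J m), (∀ j, (f j).depth ≤ D) →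
    (esum f).depth ≤ D
  | 0, _, _ => Nat.zero_le _
  | _ + 1, _, h => max_le (h 0) (depth_esum _ fun j => h j.succ)

lemma size_esum {S : ℕ} : ∀ {p : ℕ} (f : Fin p → Expr κ J m), (∀ j, (f j).size ≤ S) →
    (esum f).size ≤ p * (S + 1) + 1
  | 0, _, _ => by simp [esum, Expr.size]
  | p + 1, f, h => by
    have h1 := size_esum (S := S) (fun j => f j.succ) fun j => h j.succ
    have h2 := h 0
    simp only [esum, Expr.size]
    rw [add_mul]
    omega

end Vale.Agent.P347.Shift.MV
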