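import Vale.Agent.P347.Shift.MV.Syn
import Vale.Agent.P347.Shift.SyntaxDeriv
import Vale.Agent.P347.Shift.AdjRule

/-!
# P347, MV: what the built expressions compute
-/

open MeasureTheory ProbabilityTheory Real
open ContinuousLinearMap (adjoint)
open scoped RealInnerProductSpace ENNReal

namespace Vale.Agent.P347.Shift.MV

open Quarter

variable {κ : Type} {J p n d : ℕ}

open Classical in
/-- The nonlinear part of the transposed derivative, at a vector. -/
noncomputable def fsem (P : Par κ p) (V : κ → Sp d → Sp d) (c : Fin J → Sp d) :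
    {n : ℕ} → Expr κ J n → Fin n → (Fin n → Sp d) → Sp d → Sp d
  | _, .var _, _ => fun _ _ => 0
  | _, .zero, _ => fun _ _ => 0
  | _, .add e f, i => fun x a => fsem P V c e i x a + fsem P V c f i x a
  | _, .smul t e, i => fun x a => t • fsem P V c e i x a
  | _, .node k σ e, i => fun x a =>
    if P.L = 0 then 0 else
      e.aff i • Adj.surr (V k) σ P.w (fun j => P.lam * P.v j) P.lam (e.eval V c x) a +
        (ang P k σ)⁻¹ • ∑ j, P.w j • ∫ z, fsem P V c e i x
          (Adj.pic (Adj.surr (V k) σ P.w (fun j => P.lam * P.v j) P.lam (e.eval V c x))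
            P.q P.u P.rounds (ang P k σ * P.v j) (z, a)).1 ∂gd d
  | _, .mean C e, i => fun x a =>
    ∫ z, fsem P V c e i.succ (Fin.cons (z + ∑ j, C j • c j) x) a ∂gd d

variable (P : Par κ p) (V : κ → Sp d → Sp d) (c : Fin J → Sp d)

lemma eval_surrE {m : ℕ} (k : κ) (σ : ℝ) (ce a : Expr κ J m) (y : Fin m → Sp d) :
    (surrE P k σ ce a).eval V c y =
      Adj.surr (V k) σ P.w (fun j => P.lam * P.v j) P.lam (ce.eval V c y) (a.eval V c y) := by
  simp [surrE, eval_esum, Expr.eval, Adj.surr]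

lemma eval_picE {m : ℕ} (k : κ) (σ : ℝ) (ce z g : Expr κ J m) (y : Fin m → Sp d) :
    ∀ (l : ℕ) (τ : ℝ),
      ((picE P k σ ce z g l τ).1.eval V c y, (picE P k σ ce z g l τ).2.eval V c y) =
        Adj.pic (Adj.surr (V k) σ P.w (fun j => P.lam * P.v j) P.lam (ce.eval V c y)) P.q P.u l τ
          (z.eval V c y, g.eval V c y)
  | 0, _ => rfl
  | l + 1, τ => by
    simp only [picE, Adj.pic, Expr.eval, eval_esum, eval_surrE,
      ← fun j => eval_picE k σ ce z g y l (τ * P.u j), neg_smul, ← sub_eq_add_neg]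

/-- The built expression computes `fsem`. -/
theorem eval_build : ∀ {n : ℕ} (e : Expr κ J n) (i : Fin n) {m : ℕ} (r : Fin n → Fin m)
    (a : Expr κ J m) (y : Fin m → Sp d),
    (build P e i r a).eval V c y = fsem P V c e i (y ∘ r) (a.eval V c y) := by
  intro n e
  induction e with
  | var j => intros; rfl
  | zero => intros; rfl
  | add e f he hf => intros; simp [build, fsem, Expr.eval, he, hf]
  | smul t e he => intros; simp [build, fsem, Expr.eval, he]
  | node k σ e he =>
    intro i m r a y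
    simp only [build, fsem]
    split
    · rfl
    simp only [Expr.eval, eval_esum, eval_surrE, Expr.eval_ren]
    congr 2
    refine Finset.sum_congr rfl fun j _ => congrArg _ (integral_congr_ae (ae_of_all _ fun z => ?_))
    simp only [Pi.zero_apply, zero_smul, Finset.sum_const_zero, add_zero, he]
    have h1 : (Fin.cons z y : Fin (m + 1) → Sp d) ∘ (Fin.succ ∘ r) = y ∘ r := by
      funext l; simp
    have h2 := congrArg Prod.fst (eval_picE P V c k σ (e.ren (Fin.succ ∘ r)) (.var 0)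
      (a.ren Fin.succ) (Fin.cons z y) P.rounds (ang P k σ * P.v j))
    simp only [Expr.eval, Expr.eval_ren, Fin.cons_zero, h1, show
      (Fin.cons z y : Fin (m + 1) → Sp d) ∘ Fin.succ = y from funext fun l => by simp] at h2
    rw [h1, h2]
  | mean C e he =>
    intro i m r a y
    simp only [build, fsem, Expr.eval, he, Expr.eval_ren]
    refine integral_congr_ae (ae_of_all _ fun z => ?_)
    simp only
    congr 1
    · funext l
      refine Fin.cases ?_ (fun l => ?_) l <;> simp

variable {P V c}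

lemma norm_pic_sub_le {X : Sp d → Sp d} {M : ℝ} (hM : 0 ≤ M)
    (hX : ∀ x y, ‖X x - X y‖ ≤ M * ‖x - y‖) {q u : Fin p → ℝ} (hu : ∀ j, |u j| ≤ 1) {t : ℝ}
    (hr : t * (∑ j, |q j|) * M ≤ 1 / 2) :
    ∀ (l : ℕ) (τ : ℝ), |τ| ≤ t → ∀ z z' a a' : Sp d,
      ‖(Adj.pic X q u l τ (z, a)).1 - (Adj.pic X q u l τ (z', a')).1‖ ≤
          2 * (‖z - z'‖ + ‖a - a'‖) ∧
        ‖(Adj.pic X q u l τ (z, a)).2 - (Adj.pic X q u l τ (z', a')).2‖ ≤
          2 * (‖z - z'‖ + ‖a - a'‖)
  | 0, _, _, z, z', a, a' => by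
    simp only [Adj.pic]
    constructor <;> linarith [norm_nonneg (z - z'), norm_nonneg (a - a')]
  | l + 1, τ, hτ, z, z', a, a' => by
    have ih := fun j => norm_pic_sub_le hM hX hu hr l (τ * u j)
      (by rw [abs_mul]; exact (mul_le_of_le_one_right (abs_nonneg _) (hu j)).trans hτ) z z' a a'
    set S := ‖z - z'‖ + ‖a - a'‖
    have hS : 0 ≤ S := by positivity
    have key : ∀ (y y' : Fin p → Sp d), (∀ j, ‖y j - y' j‖ ≤ 2 * S) →
        ‖τ • ∑ j, q j • X (y j) - τ • ∑ j, q j • X (y' j)‖ ≤ S := fun y y' h => by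
      rw [← smul_sub, ← Finset.sum_sub_distrib, norm_smul, norm_eq_abs]
      refine (mul_le_mul hτ ((norm_sum_le _ _).trans (Finset.sum_le_sum
        (g := fun j => |q j| * (M * (2 * S))) fun j _ => ?_)) (norm_nonneg _)
          ((abs_nonneg τ).trans hτ)).trans ?_
      · rw [← smul_sub, norm_smul, norm_eq_abs]
        exact mul_le_mul_of_nonneg_left ((hX _ _).trans (mul_le_mul_of_nonneg_left (h j) hM))
          (abs_nonneg _)
      · rw [← Finset.sum_mul]; nlinarith
    simp only [Adj.pic]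
    constructor
    · rw [add_sub_add_comm]
      refine (norm_add_le _ _).trans ?_
      linarith [key _ _ fun j => (ih j).2, norm_nonneg (a - a')]
    · rw [sub_sub_sub_comm]
      refine (norm_sub_le _ _).trans ?_
      linarith [key _ _ fun j => (ih j).1, norm_nonneg (z - z')]

lemma continuous_fsem {ηb : κ → ℝ} {DV : κ → Sp d → Sp d →L[ℝ] Sp d} (hV : IsBoxes V DV ηb)
    (e : Expr κ J n) (i : Fin n) :
    Continuous fun t : (Fin n → Sp d) × Sp d => fsem P V c e i t.1 t.2 := by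
  have h : (fun t : (Fin n → Sp d) × Sp d => fsem P V c e i t.1 t.2) = fun t =>
      (build P e i Fin.succ (.var 0)).eval V c (Fin.cons t.2 t.1) := by
    funext t
    rw [eval_build]
    simp [Expr.eval, Function.comp_def]
  rw [h]
  exact ((build P e i Fin.succ (.var 0)).continuous_eval hV).comp continuous_cons

/-- The constant of the semantic bounds, by depth. -/
def kap0 (B W C : ℝ) : ℕ → ℝ
  | 0 => 0
  | j + 1 => B * (3 * C + 3 * W) * (1 + kap0 B W C j)

lemma kap0_nonneg {B W C : ℝ} (hB : 0 ≤ B) (hW : 0 ≤ W) (hC : 0 ≤ C) :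
    ∀ j, 0 ≤ kap0 B W C j
  | 0 => le_rfl
  | j + 1 => by have := kap0_nonneg hB hW hC j; unfold kap0; positivity

lemma kap0_le_succ {B W C : ℝ} (hB : 1 ≤ B) (hW : 1 ≤ W) (hC : 0 ≤ C) (j : ℕ) :
    kap0 B W C j ≤ kap0 B W C (j + 1) := by
  have h := kap0_nonneg (zero_le_one.trans hB) (zero_le_one.trans hW) hC j
  have h1 : 1 ≤ B * (3 * C + 3 * W) := by nlinarith
  calc kap0 B W C j ≤ 1 * (1 + kap0 B W C j) := by linarith
    _ ≤ _ := mul_le_mul_of_nonneg_right h1 (by linarith)

/-- What is assumed on the weights: the node rule, and that its errors are below `εN`. -/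
structure RuleOk (P : Par κ p) (B C εN : ℝ) (d M : ℕ) : Prop where
  rule : ∀ (V : Sp d → Sp d) (L σ lam t α K δ : ℝ) (e : Sp d) (T : Sp d →L[ℝ] Sp d)
      (F : Sp d → Sp d),
      ContDiff ℝ 1 V → (∀ x, ‖fderiv ℝ V x‖ ≤ L) →
      (∀ x u v, ⟪fderiv ℝ V x u, v⟫ = ⟪u, fderiv ℝ V x v⟫) →
      0 < σ → 0 < lam → lam ≤ 1 / 2 → 0 < t → t * L * C ≤ 1 →
      Continuous F → 0 ≤ K → 0 ≤ δ → (∀ x y, ‖F x - F y‖ ≤ K * ‖x - y‖) →
      eLpNorm (fun x => F x - adjoint T x) 2 (gd d) ≤ ENNReal.ofReal δ →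
      eLpNorm (fun g => α • Adj.surr V σ P.w (fun m => lam * P.v m) lam e g +
          t⁻¹ • ∑ m, P.w m • ∫ z, F (Adj.pic (Adj.surr V σ P.w (fun m => lam * P.v m) lam e)
            P.q P.u P.rounds (t * P.v m) (z, g)).1 ∂gd d -
          adjoint ((Adj.nodeJ V σ e).comp (α • ContinuousLinearMap.id ℝ (Sp d) + T)) g) 2 (gd d) ≤
        ENNReal.ofReal (C * (|α| * L * lam ^ (M + 1) * √d + t⁻¹ * δ +
          t⁻¹ * (K + ‖T‖) * ((t * L) ^ M + t * L * lam ^ (M + 1)) * √d))
  hC : 1 ≤ C
  err1 : P.lam ^ (M + 1) ≤ εN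
  err2 : (B * P.T) ^ M + B * P.T * P.lam ^ (M + 1) ≤ εN
  angle : B * P.T * C ≤ 1

variable {η w B W C εN : ℝ} {M : ℕ} {DV : κ → Sp d → Sp d →L[ℝ] Sp d}

/-- The assumptions at one node. -/
structure NodeHyp (P : Par κ p) (B : ℝ) (k : κ) (σ : ℝ) (e : Expr κ J n) : Prop where
  pos : 0 < σ
  le : σ ≤ B * P.sc k
  aff : ∑ i, |e.aff i| ≤ B * P.sc k
  sm : e.sm P.L P.sc ≤ B * σ * P.T

variable {k : κ} {σ : ℝ} {e : Expr κ J n} {j : ℕ} {i : Fin n} {x : Fin n → Sp d}

lemma NodeHyp.sc_pos (hP : P.Ok η w B W) (hN : NodeHyp P B k σ e) : 0 < P.sc k := by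
  rcases eq_or_lt_of_le (hP.hsc k) with h | h
  · have := hN.le
    rw [← h, mul_zero] at this
    linarith [hN.pos]
  · exact h

lemma NodeHyp.aff_le (hN : NodeHyp P B k σ e) (i : Fin n) : |e.aff i| ≤ B * P.sc k :=
  (Finset.single_le_sum (f := fun i => |e.aff i|) (fun _ _ => abs_nonneg _)
    (Finset.mem_univ i)).trans hN.aff

lemma NodeHyp.le_sm (hP : P.Ok η w B W) (e : Expr κ J n) :
    P.L * P.sc k ≤ (Expr.node k σ e).sm P.L P.sc :=
  mul_le_mul_of_nonneg_left (le_add_of_nonneg_right (sm_nonneg hP.hL hP.hsc e)) hP.hL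

lemma norm_surr_le (hP : P.Ok η w B W) (hV : ∀ k, IsField P.L (V k)) (hσ : 0 < σ) (v : Sp d)
    (a a' : Sp d) :
    ‖Adj.surr (V k) σ P.w (fun m => P.lam * P.v m) P.lam v a -
      Adj.surr (V k) σ P.w (fun m => P.lam * P.v m) P.lam v a'‖ ≤ W * P.L * ‖a - a'‖ := by
  have hl := hP.hlam
  refine (Adj.norm_surr_sub (hV k).smooth (hV k).bound hσ _ _ _ _ _ _).trans ?_
  rw [sub_self, norm_zero, mul_zero, zero_add, mul_comm W, mul_assoc]
  refine mul_le_mul_of_nonneg_left (mul_le_mul_of_nonneg_right ?_ (norm_nonneg _)) hP.hL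
  rw [abs_of_pos hl, div_le_iff₀ hl]
  refine (Finset.sum_le_sum (g := fun m => |P.w m| * P.lam) fun m _ => ?_).trans ?_
  · refine mul_le_mul_of_nonneg_left ?_ (abs_nonneg _)
    rw [abs_mul, abs_of_pos hl]; exact mul_le_of_le_one_right hl.le (hP.hv m)
  · rw [← Finset.sum_mul]; exact mul_le_mul_of_nonneg_right hP.hw hl.le

/-- The Lipschitz bound of one rule, for abstract fields. -/
lemma rule_lip {X F : Sp d → Sp d} {MX K W t α : ℝ} {wt v q u : Fin p → ℝ} (hMX : 0 ≤ MX)
    (hK : 0 ≤ K) (hXc : Continuous X) (hX : ∀ y y', ‖X y - X y'‖ ≤ MX * ‖y - y'‖)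
    (hFc : Continuous F) (hF : ∀ y y', ‖F y - F y'‖ ≤ K * ‖y - y'‖) (ht : 0 < t)
    (hw : ∑ m, |wt m| ≤ W) (hv : ∀ m, |v m| ≤ 1) (hu : ∀ m, |u m| ≤ 1)
    (hr : t * (∑ m, |q m|) * MX ≤ 1 / 2) (rounds : ℕ) (a a' : Sp d) :
    ‖(α • X a + t⁻¹ • ∑ m, wt m • ∫ z, F (Adj.pic X q u rounds (t * v m) (z, a)).1 ∂gd d) -
        (α • X a' + t⁻¹ • ∑ m, wt m • ∫ z, F (Adj.pic X q u rounds (t * v m) (z, a')).1 ∂gd d)‖ ≤
      (|α| * MX + t⁻¹ * (W * (K * 2))) * ‖a - a'‖ := by
  have hτ : ∀ m, |t * v m| ≤ t := fun m => by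
    rw [abs_mul, abs_of_pos ht]; exact mul_le_of_le_one_right ht.le (hv m)
  have hp := fun m => norm_pic_sub_le hMX hX hu hr rounds _ (hτ m)
  have hi : ∀ m b, Integrable (fun z => F (Adj.pic X q u rounds (t * v m) (z, b)).1) (gd d) := by
    intro m b
    have hc : Continuous fun z => F (Adj.pic X q u rounds (t * v m) (z, b)).1 :=
      hFc.comp ((continuous_fst.comp (Adj.continuous_pic hXc q u rounds (t * v m))).comp
        (f := fun z => (z, b)) (by fun_prop))
    refine ((integrable_const ‖F (Adj.pic X q u rounds (t * v m) (0, b)).1‖).add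
      (integrable_norm_gd.const_mul (K * 2))).mono' hc.aestronglyMeasurable
      (ae_of_all _ fun z => ?_)
    have h1 := (hF _ _).trans (mul_le_mul_of_nonneg_left (hp m z 0 b b).1 hK)
    rw [sub_zero, sub_self, norm_zero, add_zero] at h1
    simp only [Pi.add_apply]
    linarith [norm_le_insert' (F (Adj.pic X q u rounds (t * v m) (z, b)).1)
      (F (Adj.pic X q u rounds (t * v m) (0, b)).1)]
  rw [add_sub_add_comm, ← smul_sub, ← smul_sub, ← Finset.sum_sub_distrib]
  refine (norm_add_le _ _).trans ?_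
  rw [norm_smul, norm_smul, norm_eq_abs, norm_eq_abs, abs_of_pos (inv_pos.2 ht), add_mul,
    mul_assoc, mul_assoc t⁻¹]
  refine add_le_add (mul_le_mul_of_nonneg_left (hX a a') (abs_nonneg _))
    (mul_le_mul_of_nonneg_left ?_ (inv_pos.2 ht).le)
  rw [mul_assoc W]
  refine ((norm_sum_le _ _).trans ((Finset.sum_le_sum fun m _ => ?_).trans_eq
    (Finset.sum_mul ..).symm)).trans (mul_le_mul_of_nonneg_right hw (by positivity))
  rw [← smul_sub, norm_smul, norm_eq_abs, ← integral_sub (hi m a) (hi m a')]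
  refine mul_le_mul_of_nonneg_left ?_ (abs_nonneg _)
  refine (norm_integral_le_of_norm_le_const (ae_of_all _ fun z => (hF _ _).trans
    (mul_le_mul_of_nonneg_left ((hp m z z a a').1.trans_eq (by simp :
      2 * (‖z - z‖ + ‖a - a'‖) = 2 * ‖a - a'‖)) hK))).trans_eq ?_
  simp [mul_assoc]

lemma node_lip (hP : P.Ok η w B W) (hC : 1 ≤ C) (hV : ∀ k, IsField P.L (V k))
    (hN : NodeHyp P B k σ e) (hcont : Continuous (fsem P V c e i x))
    (a1 : ∀ a a', ‖fsem P V c e i x a - fsem P V c e i x a'‖ ≤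
      kap0 B W C j * e.sm P.L P.sc * ‖a - a'‖) (a a' : Sp d) :
    ‖fsem P V c (Expr.node k σ e) i x a - fsem P V c (Expr.node k σ e) i x a'‖ ≤
      kap0 B W C (j + 1) * (Expr.node k σ e).sm P.L P.sc * ‖a - a'‖ := by
  have hC0 : 0 ≤ C := zero_le_one.trans hC
  have hW0 : 0 ≤ W := zero_le_one.trans hP.hW
  have hB0 : 0 ≤ B := zero_le_one.trans hP.hB
  have hK := kap0_nonneg hB0 hW0 hC0
  have hL := hP.hL
  have hT := hP.hT0
  have hσ := hN.pos
  have hσs := hN.le
  have hsm := hN.sm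
  have hscp := hN.sc_pos hP
  have he0 := sm_nonneg hP.hL hP.hsc e
  have hα := hN.aff_le i
  have hnode := NodeHyp.le_sm (k := k) (σ := σ) hP e
  have hX1 := norm_surr_le (k := k) hP hV hσ (e.eval V c x)
  set K := kap0 B W C j with hKdef
  have hKj : 0 ≤ K := hK j
  have hZ : kap0 B W C (j + 1) = B * (3 * C + 3 * W) * (1 + K) := rfl
  set Sn := (Expr.node k σ e).sm P.L P.sc with hSn
  have hSn0 : 0 ≤ Sn := le_trans (by positivity) hnode
  simp only [fsem]
  split
  · simpa using mul_nonneg (mul_nonneg (hK (j + 1)) hSn0) (norm_nonneg (a - a'))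
  rename_i hne
  have hLp : 0 < P.L := lt_of_le_of_ne hL (Ne.symm hne)
  have hang : 0 < ang P k σ := by unfold ang; positivity
  have hr : ang P k σ * (∑ m, |P.q m|) * (W * P.L) ≤ 1 / 2 := by
    calc ang P k σ * (∑ m, |P.q m|) * (W * P.L) ≤ ang P k σ * W * (W * P.L) := by
          gcongr; exact hP.hq
      _ = W * W * P.T * σ / P.sc k := by unfold ang; field_simp
      _ ≤ W * W * P.T * (B * P.sc k) / P.sc k := by gcongr
      _ = W * W * B * P.T := by field_simp
      _ ≤ 1 / 2 := hP.small.trans (by norm_num)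
  refine (rule_lip (mul_nonneg hW0 hL) (mul_nonneg hKj he0)
    (Adj.continuous_surr (hV k).smooth (hV k).bound _ _ _) hX1 hcont a1 hang hP.hw hP.hv hP.hu hr
    P.rounds a a').trans (mul_le_mul_of_nonneg_right ?_ (norm_nonneg _))
  calc |e.aff i| * (W * P.L) + (ang P k σ)⁻¹ * (W * (K * e.sm P.L P.sc * 2))
      ≤ B * P.sc k * (W * P.L) + (ang P k σ)⁻¹ * (W * (K * (B * σ * P.T) * 2)) := by gcongr
    _ = B * (W * (1 + 2 * K)) * (P.L * P.sc k) := by
        unfold ang; field_simp
    _ ≤ kap0 B W C (j + 1) * Sn := by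
        rw [hZ]
        refine mul_le_mul ?_ hnode (by positivity) (by positivity)
        rw [mul_assoc B (3 * C + 3 * W)]
        refine mul_le_mul_of_nonneg_left ?_ hB0
        nlinarith [mul_nonneg hW0 hKj, mul_nonneg hC0 hKj]

lemma node_norm (hP : P.Ok η w B W) (hC : 1 ≤ C) (hV : ∀ k, IsField P.L (V k))
    (hN : NodeHyp P B k σ e) {A : Sp d →L[ℝ] Sp d}
    (a2 : ‖A‖ ≤ kap0 B W C j * e.sm P.L P.sc) :
    ‖(Adj.nodeJ (V k) σ (e.eval V c x)).comp (e.aff i • ContinuousLinearMap.id ℝ (Sp d) + A)‖ ≤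
      kap0 B W C (j + 1) * (Expr.node k σ e).sm P.L P.sc := by
  have hC0 : 0 ≤ C := zero_le_one.trans hC
  have hW0 : 0 ≤ W := zero_le_one.trans hP.hW
  have hB0 : 0 ≤ B := zero_le_one.trans hP.hB
  have hL := hP.hL
  have hscp := hN.sc_pos hP
  have he0 := sm_nonneg hP.hL hP.hsc e
  have hα := hN.aff_le i
  set K := kap0 B W C j with hKdef
  have hKj : 0 ≤ K := kap0_nonneg hB0 hW0 hC0 j
  have hZ : kap0 B W C (j + 1) = B * (3 * C + 3 * W) * (1 + K) := rfl
  have hJ := Adj.norm_nodeJ_le (hV k).bound σ (e.eval V c x)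
  have h1 : ‖e.aff i • ContinuousLinearMap.id ℝ (Sp d)‖ ≤ B * P.sc k := by
    rw [norm_smul, norm_eq_abs]
    exact (mul_le_of_le_one_right (abs_nonneg _) ContinuousLinearMap.norm_id_le).trans hα
  have h2 : ‖e.aff i • ContinuousLinearMap.id ℝ (Sp d) + A‖ ≤
      B * P.sc k + K * e.sm P.L P.sc := (norm_add_le _ _).trans (add_le_add h1 a2)
  refine (ContinuousLinearMap.opNorm_comp_le _ _).trans
    ((mul_le_mul hJ h2 (norm_nonneg _) hL).trans ?_)
  have h3 : 1 + K ≤ (3 * C + 3 * W) * (1 + K) :=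
    le_mul_of_one_le_left (by linarith) (by linarith [hP.hW])
  have h4 : K ≤ B * (1 + K) := le_trans (by linarith) (le_mul_of_one_le_left (by linarith) hP.hB)
  have h5 : B ≤ B * (1 + K) := le_mul_of_one_le_right hB0 (by linarith)
  have h6 : 0 ≤ P.L * (P.sc k + e.sm P.L P.sc) := mul_nonneg hL (add_nonneg hscp.le he0)
  calc P.L * (B * P.sc k + K * e.sm P.L P.sc)
      ≤ P.L * (B * (1 + K) * P.sc k + B * (1 + K) * e.sm P.L P.sc) :=
        mul_le_mul_of_nonneg_left (add_le_add (mul_le_mul_of_nonneg_right h5 hscp.le)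
          (mul_le_mul_of_nonneg_right h4 he0)) hL
    _ = B * (1 + K) * (P.L * (P.sc k + e.sm P.L P.sc)) := by ring
    _ ≤ B * ((3 * C + 3 * W) * (1 + K)) * (P.L * (P.sc k + e.sm P.L P.sc)) :=
        mul_le_mul_of_nonneg_right (mul_le_mul_of_nonneg_left h3 hB0) h6
    _ = _ := by rw [hZ, ← mul_assoc B]; rfl

lemma node_err (hP : P.Ok η w B W) (hR : RuleOk P B C εN d M) (hV : ∀ k, IsField P.L (V k))
    (hN : NodeHyp P B k σ e) (hcont : Continuous (fsem P V c e i x))
    (a1 : ∀ a a', ‖fsem P V c e i x a - fsem P V c e i x a'‖ ≤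
      kap0 B W C j * e.sm P.L P.sc * ‖a - a'‖) {A : Sp d →L[ℝ] Sp d}
    (a2 : ‖A‖ ≤ kap0 B W C j * e.sm P.L P.sc)
    (a3 : eLpNorm (fun a => fsem P V c e i x a - adjoint A a) 2 (gd d) ≤
      ENNReal.ofReal (kap0 B W C j * εN * e.sm P.L P.sc * √d)) :
    eLpNorm (fun a => fsem P V c (Expr.node k σ e) i x a - adjoint
        ((Adj.nodeJ (V k) σ (e.eval V c x)).comp
          (e.aff i • ContinuousLinearMap.id ℝ (Sp d) + A)) a) 2 (gd d) ≤
      ENNReal.ofReal (kap0 B W C (j + 1) * εN * (Expr.node k σ e).sm P.L P.sc * √d) := by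
  have hC0 : 0 ≤ C := zero_le_one.trans hR.hC
  have hW0 : 0 ≤ W := zero_le_one.trans hP.hW
  have hB0 : 0 ≤ B := zero_le_one.trans hP.hB
  have hε : 0 ≤ εN := (pow_nonneg hP.hlam.le _).trans hR.err1
  have hL := hP.hL
  have hl := hP.hlam
  have hT := hP.hT0
  have hσ := hN.pos
  have hσs := hN.le
  have hsm := hN.sm
  have hscp := hN.sc_pos hP
  have he0 := sm_nonneg hP.hL hP.hsc e
  have hα := hN.aff_le i
  have hnode := NodeHyp.le_sm (k := k) (σ := σ) hP e
  set Jn := Adj.nodeJ (V k) σ (e.eval V c x) with hJn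
  set K := kap0 B W C j with hKdef
  have hKj : 0 ≤ K := kap0_nonneg hB0 hW0 hC0 j
  have hZ : kap0 B W C (j + 1) = B * (3 * C + 3 * W) * (1 + K) := rfl
  set Sn := (Expr.node k σ e).sm P.L P.sc with hSn
  have hSn0 : 0 ≤ Sn := le_trans (by positivity) hnode
  by_cases hne : P.L = 0
  · have hJ : Jn = 0 := norm_le_zero_iff.1
      ((Adj.norm_nodeJ_le (hV k).bound σ _).trans_eq hne)
    simp [fsem, hne, hJ]
  have hLp : 0 < P.L := lt_of_le_of_ne hL (Ne.symm hne)
  have hang : 0 < ang P k σ := by unfold ang; positivity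
  have htL : ang P k σ * P.L = σ * P.T / P.sc k := by unfold ang; field_simp
  have htB : ang P k σ * P.L ≤ B * P.T := by
    rw [htL, div_le_iff₀ hscp]
    nlinarith [mul_le_mul_of_nonneg_right hσs hT.le]
  have htC : ang P k σ * P.L * C ≤ 1 :=
    (mul_le_mul_of_nonneg_right htB hC0).trans hR.angle
  have h := hR.rule (V k) P.L σ P.lam (ang P k σ) (e.aff i) (K * e.sm P.L P.sc)
    (K * εN * e.sm P.L P.sc * √d) (e.eval V c x) A (fsem P V c e i x) (hV k).smooth
    (hV k).bound (hV k).sym hσ hl hP.hlam2 hang htC hcont (by positivity) (by positivity)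
    a1 a3
  simp only [fsem, hne, if_false]
  refine h.trans (ENNReal.ofReal_le_ofReal ?_)
  have hinv : (ang P k σ)⁻¹ * e.sm P.L P.sc ≤ B * (P.L * P.sc k) := by
    refine (mul_le_mul_of_nonneg_left hsm (inv_pos.2 hang).le).trans_eq ?_
    unfold ang; field_simp
  have hE : (ang P k σ * P.L) ^ M + ang P k σ * P.L * P.lam ^ (M + 1) ≤ εN :=
    le_trans (by gcongr) hR.err2
  calc C * (|e.aff i| * P.L * P.lam ^ (M + 1) * √d +
        (ang P k σ)⁻¹ * (K * εN * e.sm P.L P.sc * √d) +
        (ang P k σ)⁻¹ * (K * e.sm P.L P.sc + ‖A‖) *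
          ((ang P k σ * P.L) ^ M + ang P k σ * P.L * P.lam ^ (M + 1)) * √d)
      ≤ C * (B * P.sc k * P.L * εN * √d + (ang P k σ)⁻¹ * (K * εN * e.sm P.L P.sc * √d) +
        (ang P k σ)⁻¹ * (K * e.sm P.L P.sc + K * e.sm P.L P.sc) * εN * √d) := by
        gcongr
        exact hR.err1
    _ = C * (B * (P.L * P.sc k) + 3 * K * ((ang P k σ)⁻¹ * e.sm P.L P.sc)) * εN * √d := by
        ring
    _ ≤ C * (B * (P.L * P.sc k) + 3 * K * (B * (P.L * P.sc k))) * εN * √d := by gcongr
    _ = B * (C * (1 + 3 * K)) * (P.L * P.sc k) * εN * √d := by ring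
    _ ≤ B * ((3 * C + 3 * W) * (1 + K)) * Sn * εN * √d := by
        have h : C * (1 + 3 * K) ≤ (3 * C + 3 * W) * (1 + K) := by
          nlinarith [mul_nonneg hW0 hKj, mul_nonneg hC0 hKj]
        refine mul_le_mul_of_nonneg_right (mul_le_mul_of_nonneg_right (mul_le_mul
          (mul_le_mul_of_nonneg_left h hB0) hnode (by positivity) (by positivity)) hε)
          (sqrt_nonneg _)
    _ = kap0 B W C (j + 1) * εN * Sn * √d := by rw [hZ]; ring


lemma node_ok (hP : P.Ok η w B W) (hR : RuleOk P B C εN d M) (hV : ∀ k, IsField P.L (V k))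
    (hG : (Expr.node k σ e).Good η P.L P.sc B (B / P.lam) w)
    (a1 : ∀ a a', ‖fsem P V c e i x a - fsem P V c e i x a'‖ ≤
      kap0 B W C j * e.sm P.L P.sc * ‖a - a'‖)
    (a2 : ‖(e.deriv i).eval V (fun k => fderiv ℝ (V k)) c x -
      e.aff i • ContinuousLinearMap.id ℝ (Sp d)‖ ≤ kap0 B W C j * e.sm P.L P.sc)
    (a3 : eLpNorm (fun a => fsem P V c e i x a - adjoint ((e.deriv i).eval V
        (fun k => fderiv ℝ (V k)) c x - e.aff i • ContinuousLinearMap.id ℝ (Sp d)) a) 2 (gd d) ≤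
      ENNReal.ofReal (kap0 B W C j * εN * e.sm P.L P.sc * √d)) :
    (∀ a a', ‖fsem P V c (Expr.node k σ e) i x a - fsem P V c (Expr.node k σ e) i x a'‖ ≤
        kap0 B W C (j + 1) * (Expr.node k σ e).sm P.L P.sc * ‖a - a'‖) ∧
      ‖((Expr.node k σ e).deriv i).eval V (fun k => fderiv ℝ (V k)) c x -
        (Expr.node k σ e).aff i • ContinuousLinearMap.id ℝ (Sp d)‖ ≤
          kap0 B W C (j + 1) * (Expr.node k σ e).sm P.L P.sc ∧
      eLpNorm (fun a => fsem P V c (Expr.node k σ e) i x a - adjoint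
        (((Expr.node k σ e).deriv i).eval V (fun k => fderiv ℝ (V k)) c x -
          (Expr.node k σ e).aff i • ContinuousLinearMap.id ℝ (Sp d)) a) 2 (gd d) ≤
        ENNReal.ofReal (kap0 B W C (j + 1) * εN * (Expr.node k σ e).sm P.L P.sc * √d) := by
  obtain ⟨hσ, hσs, -, -, hS, hsm, -⟩ := hG
  rw [← hP.hT] at hsm
  have hN : NodeHyp P B k σ e := ⟨hσ, hσs, hS, hsm⟩
  have hBx : IsBoxes V (fun k => fderiv ℝ (V k)) (fun _ => P.L) :=
    ⟨fun _ => hP.hL, fun k y => ((hV k).smooth.differentiable one_ne_zero y).hasFDerivAt,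
      fun k => (hV k).smooth.continuous_fderiv one_ne_zero, fun k => (hV k).sym,
      fun k => (hV k).bound⟩
  have hcont : Continuous (fsem P V c e i x) :=
    ((continuous_fsem hBx e i).comp (f := fun a => (x, a)) (by fun_prop) :)
  have hA : ((Expr.node k σ e).deriv i).eval V (fun k => fderiv ℝ (V k)) c x -
      (Expr.node k σ e).aff i • ContinuousLinearMap.id ℝ (Sp d) =
      (Adj.nodeJ (V k) σ (e.eval V c x)).comp (e.aff i • ContinuousLinearMap.id ℝ (Sp d) +
        ((e.deriv i).eval V (fun k => fderiv ℝ (V k)) c x -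
          e.aff i • ContinuousLinearMap.id ℝ (Sp d))) := by
    simp [Expr.deriv, Op.eval, Expr.aff, Adj.nodeJ, smth]
    exact zero_smul ℝ (ContinuousLinearMap.id ℝ (Sp d))
  rw [hA]
  exact ⟨node_lip hP hR.hC hV hN hcont a1, node_norm hP hR.hC hV hN a2,
    node_err hP hR hV hN hcont a1 a2 a3⟩

/-- **The semantic bounds**: Lipschitz in the argument, the size and the mean square error. -/
theorem sem_ok (hP : P.Ok η w B W) (hR : RuleOk P B C εN d M)
    (hV : ∀ k, IsField P.L (V k)) :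
    ∀ {n : ℕ} (e : Expr κ J n) (j : ℕ), e.depth ≤ j →
      e.Good η P.L P.sc B (B / P.lam) w → ∀ (i : Fin n) (x : Fin n → Sp d),
      (∀ a a' : Sp d, ‖fsem P V c e i x a - fsem P V c e i x a'‖ ≤
          kap0 B W C j * e.sm P.L P.sc * ‖a - a'‖) ∧
        ‖(e.deriv i).eval V (fun k => fderiv ℝ (V k)) c x -
          e.aff i • ContinuousLinearMap.id ℝ (Sp d)‖ ≤ kap0 B W C j * e.sm P.L P.sc ∧
        eLpNorm (fun a => fsem P V c e i x a - adjoint ((e.deriv i).eval V
            (fun k => fderiv ℝ (V k)) c x - e.aff i • ContinuousLinearMap.id ℝ (Sp d)) a) 2 (gd d) ≤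
          ENNReal.ofReal (kap0 B W C j * εN * e.sm P.L P.sc * √d) := by
  have hBx : IsBoxes V (fun k => fderiv ℝ (V k)) (fun _ => P.L) :=
    ⟨fun _ => hP.hL, fun k y => ((hV k).smooth.differentiable one_ne_zero y).hasFDerivAt,
      fun k => (hV k).smooth.continuous_fderiv one_ne_zero, fun k => (hV k).sym,
      fun k => (hV k).bound⟩
  have hC0 : 0 ≤ C := zero_le_one.trans hR.hC
  have hW0 : 0 ≤ W := zero_le_one.trans hP.hW
  have hB0 : 0 ≤ B := zero_le_one.trans hP.hB
  have hK := kap0_nonneg hB0 hW0 hC0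
  have hε : 0 ≤ εN := (pow_nonneg hP.hlam.le _).trans hR.err1
  have hcs : ∀ {n : ℕ} (e : Expr κ J n) (i : Fin n) (x : Fin n → Sp d),
      Continuous (fsem P V c e i x) := fun e i x =>
    ((continuous_fsem hBx e i).comp (f := fun a => (x, a)) (by fun_prop) :)
  intro n e
  induction e with
  | var l =>
    intro j _ _ i x
    refine ⟨fun a a' => by simp [fsem, Expr.sm], ?_, ?_⟩ <;>
      simp [fsem, Expr.deriv, Op.eval, Expr.aff, Expr.sm]
  | zero =>
    intro j _ _ i x
    refine ⟨fun a a' => by simp [fsem, Expr.sm], ?_, ?_⟩ <;>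
      simp [fsem, Expr.deriv, Op.eval, Expr.aff, Expr.sm]
  | add e f he hf =>
    intro j hj hG i x
    obtain ⟨a1, a2, a3⟩ := he j ((le_max_left _ _).trans hj) hG.1 i x
    obtain ⟨b1, b2, b3⟩ := hf j ((le_max_right _ _).trans hj) hG.2 i x
    set A := (e.deriv i).eval V (fun k => fderiv ℝ (V k)) c x -
      e.aff i • ContinuousLinearMap.id ℝ (Sp d)
    set A' := (f.deriv i).eval V (fun k => fderiv ℝ (V k)) c x -
      f.aff i • ContinuousLinearMap.id ℝ (Sp d)
    have hA : ((Expr.add e f).deriv i).eval V (fun k => fderiv ℝ (V k)) c x -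
        (Expr.add e f).aff i • ContinuousLinearMap.id ℝ (Sp d) = A + A' := by
      simp only [Expr.deriv, Op.eval, Expr.aff, A, A']; module
    refine ⟨fun u u' => ?_, ?_, ?_⟩
    · simp only [fsem, Expr.sm]
      rw [add_sub_add_comm, mul_add, add_mul]
      exact (norm_add_le _ _).trans (add_le_add (a1 u u') (b1 u u'))
    · rw [hA, Expr.sm, mul_add]
      exact (norm_add_le _ _).trans (add_le_add a2 b2)
    · rw [hA]
      have e1 : (fun a => fsem P V c (e.add f) i x a - adjoint (A + A') a) =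
          (fun a => fsem P V c e i x a - adjoint A a) +
            fun a => fsem P V c f i x a - adjoint A' a := by
        funext a; simp [fsem, map_add]; abel
      rw [e1]
      refine (eLpNorm_add_le ((hcs e i x).sub (adjoint A).continuous).aestronglyMeasurable
        ((hcs f i x).sub (adjoint A').continuous).aestronglyMeasurable one_le_two).trans
        ((add_le_add a3 b3).trans_eq ?_)
      have := sm_nonneg hP.hL hP.hsc e
      have := sm_nonneg hP.hL hP.hsc f
      have := hK j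
      rw [← ENNReal.ofReal_add (by positivity) (by positivity), Expr.sm]
      ring_nf
  | smul t e he =>
    intro j hj hG i x
    obtain ⟨a1, a2, a3⟩ := he j hj hG i x
    set A := (e.deriv i).eval V (fun k => fderiv ℝ (V k)) c x -
      e.aff i • ContinuousLinearMap.id ℝ (Sp d)
    have hA : ((Expr.smul t e).deriv i).eval V (fun k => fderiv ℝ (V k)) c x -
        (Expr.smul t e).aff i • ContinuousLinearMap.id ℝ (Sp d) = t • A := by
      ext v; simp [Expr.deriv, Op.eval, Expr.aff, A, smul_sub, smul_smul]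
    refine ⟨fun u u' => ?_, ?_, ?_⟩
    · simp only [fsem, Expr.sm]
      rw [← smul_sub, norm_smul, norm_eq_abs]
      exact (mul_le_mul_of_nonneg_left (a1 u u') (abs_nonneg t)).trans_eq (by ring)
    · rw [hA, norm_smul, norm_eq_abs, Expr.sm]
      exact (mul_le_mul_of_nonneg_left a2 (abs_nonneg t)).trans_eq (by ring)
    · rw [hA]
      have e1 : (fun a => fsem P V c (Expr.smul t e) i x a - adjoint (t • A) a) =
          t • fun a => fsem P V c e i x a - adjoint A a := by
        funext a; simp [fsem, smul_sub]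
      rw [e1, eLpNorm_const_smul, Adj.ofReal_abs]
      refine (mul_le_mul' le_rfl a3).trans_eq ?_
      rw [← ENNReal.ofReal_mul (abs_nonneg t), Expr.sm]
      ring_nf
  | mean Cc e he =>
    intro j hj hG i x
    obtain ⟨j, rfl⟩ : ∃ j', j = j' + 1 := ⟨j - 1, by simp only [Expr.depth] at hj; omega⟩
    simp only [Expr.depth] at hj
    set K := kap0 B W C j
    set K' := kap0 B W C (j + 1)
    have hKK : K ≤ K' := kap0_le_succ hP.hB hP.hW hC0 j
    have hs := sm_nonneg hP.hL hP.hsc e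
    have hsm : e.sm P.L P.sc ≤ (Expr.mean Cc e).sm P.L P.sc :=
      le_add_of_nonneg_right (abs_nonneg _)
    have hKs : K * e.sm P.L P.sc ≤ K' * (Expr.mean Cc e).sm P.L P.sc :=
      mul_le_mul hKK hsm hs (hK _)
    set y : Sp d → (Fin (_ + 1) → Sp d) := fun z => Fin.cons (z + ∑ j, Cc j • c j) x
    have hy : Continuous y := continuous_cons.comp
      (f := fun z => (x, z + ∑ j, Cc j • c j)) (by fun_prop)
    have ih := fun z => he j (by omega) hG i.succ (y z)
    set A : Sp d → Sp d →L[ℝ] Sp d := fun z =>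
      (e.deriv i.succ).eval V (fun k => fderiv ℝ (V k)) c (y z) -
        e.aff i.succ • ContinuousLinearMap.id ℝ (Sp d)
    have hAc : Continuous A :=
      (((e.deriv i.succ).continuous_eval hBx).comp hy).sub continuous_const
    have hAi : Integrable A (gd d) := (integrable_const (K * e.sm P.L P.sc)).mono'
      hAc.aestronglyMeasurable (ae_of_all _ fun z => (ih z).2.1)
    have hA : ((Expr.mean Cc e).deriv i).eval V (fun k => fderiv ℝ (V k)) c x -
        (Expr.mean Cc e).aff i • ContinuousLinearMap.id ℝ (Sp d) = ∫ z, A z ∂gd d := by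
      simp only [A, Expr.deriv, Op.eval, Expr.aff]
      rw [integral_sub ((e.deriv i.succ).integrable_cons hBx
        ((e.deriv i.succ).continuous_eval hBx) _ x) (integrable_const _)]
      simp
    have hfi : ∀ a, Integrable (fun z => fsem P V c e i.succ (y z) a) (gd d) := fun a => by
      set E := build P e i.succ (Fin.cons 0 (Fin.succ ∘ Fin.succ)) (Expr.var 1)
      have h := E.integrable_cons hBx (c := c) (∑ j, Cc j • c j) (Fin.cons a x)
      refine h.congr (ae_of_all _ fun z => ?_)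
      simp only [E, eval_build, Expr.eval]
      congr 1
      funext l
      refine Fin.cases ?_ (fun l => ?_) l <;> simp [y]
    have hjoint : Continuous fun t : Sp d × Sp d => fsem P V c e i.succ (y t.1) t.2 :=
      (continuous_fsem hBx e i.succ).comp (f := fun t : Sp d × Sp d => (y t.1, t.2))
        ((hy.comp continuous_fst).prodMk continuous_snd)
    refine ⟨fun u u' => ?_, ?_, ?_⟩
    · simp only [fsem]
      rw [← integral_sub (hfi u) (hfi u')]
      refine (norm_integral_le_of_norm_le_const (ae_of_all _ fun z => (ih z).1 u u')).trans ?_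
      simp only [probReal_univ, mul_one]
      exact mul_le_mul_of_nonneg_right hKs (norm_nonneg _)
    · rw [hA]
      refine (norm_integral_le_of_norm_le_const (ae_of_all _ fun z => (ih z).2.1)).trans ?_
      simpa using hKs
    · rw [hA]
      have had : Continuous fun z => adjoint (A z) :=
        ContinuousLinearMap.adjoint.continuous.comp hAc
      have e1 : (fun a => fsem P V c (Expr.mean Cc e) i x a - adjoint (∫ z, A z ∂gd d) a) =
          fun a => ∫ z, (fsem P V c e i.succ (y z) a - adjoint (A z) a) ∂gd d := by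
        funext a
        have h1 : Integrable (fun z => adjoint (A z)) (gd d) :=
          (integrable_const (K * e.sm P.L P.sc)).mono' had.aestronglyMeasurable
            (ae_of_all _ fun z => (LinearIsometryEquiv.norm_map _ _).trans_le (ih z).2.1)
        rw [integral_sub (hfi a) (h1.apply_continuousLinearMap a),
          ← ContinuousLinearMap.integral_apply h1]
        congr 1
        exact congrArg (fun T : Sp d →L[ℝ] Sp d => T a)
          (ContinuousLinearMap.adjoint (𝕜 := ℝ) (E := Sp d) (F := Sp d)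
            |>.toContinuousLinearEquiv.integral_comp_comm A).symm
      rw [e1]
      refine (Adj.mean_le (h := fun t : Sp d × Sp d =>
        fsem P V c e i.succ (y t.1) t.2 - adjoint (A t.1) t.2) ?_ fun z => (ih z).2.2).trans
        (ENNReal.ofReal_le_ofReal ?_)
      · exact (hjoint.sub ((had.comp continuous_fst).clm_apply continuous_snd)).stronglyMeasurable
      · have := mul_le_mul_of_nonneg_right (mul_le_mul_of_nonneg_right hKs hε) (sqrt_nonneg (d:ℝ))
        linarith
  | node k σ e he =>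
    intro j hj hG i x
    obtain ⟨j, rfl⟩ : ∃ j', j = j' + 1 := ⟨j - 1, by simp only [Expr.depth] at hj; omega⟩
    simp only [Expr.depth] at hj
    obtain ⟨a1, a2, a3⟩ := he j (by omega) hG.2.2.2.2.2.2 i x
    exact node_ok hP hR hV hG a1 a2 a3

end Vale.Agent.P347.Shift.MV
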