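import Vale.Agent.P347.Shift.MV.Ren

/-!
# P347, MV: sizes of the built expressions
-/

open Real

namespace Vale.Agent.P347.Shift.MV

variable {κ : Type} {J p n m : ℕ} {η w B W : ℝ}

/-- The standing assumptions on the parameters. -/
structure Par.Ok (P : Par κ p) (η w B W : ℝ) : Prop where
  hL : 0 ≤ P.L
  hsc : ∀ k, 0 ≤ P.sc k
  hlam : 0 < P.lam
  hlam2 : P.lam ≤ 1 / 2
  hT : P.T = η ^ w
  hT0 : 0 < P.T
  hT1 : P.T ≤ 1
  hB : 1 ≤ B
  hW : 1 ≤ W
  hw : ∑ j, |P.w j| ≤ W
  hq : ∑ j, |P.q j| ≤ W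
  hv : ∀ j, |P.v j| ≤ 1
  hu : ∀ j, |P.u j| ≤ 1
  small : W * W * B * P.T ≤ 1 / 8

/-- The unit of one rotation. -/
def c1 (B W : ℝ) : ℝ := 4 * W ^ 2 * (1 + B ^ 2)

/-- The allowed size of an argument, by remaining depth. -/
def gam (B W : ℝ) (D j : ℕ) : ℝ := c1 B W * 3 ^ (D + 1 - j)

/-- The constant of the invariant of the output. -/
def bnd (B W : ℝ) (D : ℕ) : ℝ := 4 * (B + 3 * gam B W D 0)

/-- The growth of the size, by depth. -/
def grw (B W : ℝ) (D : ℕ) : ℕ → ℝ
  | 0 => 0
  | j + 1 => B * W * (2 + B ^ 2 + B * gam B W D 0) * (1 + grw B W D j)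

/-- The invariant of the output. -/
def OGood (P : Par κ p) (η w Γ : ℝ) (e : Expr κ J m) : Prop :=
  e.Good η P.L P.sc Γ (Γ / P.lam) w

lemma gam_le (hB : 1 ≤ B) (D : ℕ) {i j : ℕ} (h : i ≤ j) : gam B W D j ≤ gam B W D i := by
  unfold gam c1
  refine mul_le_mul_of_nonneg_left (pow_le_pow_right₀ (by norm_num) ?_) (by positivity)
  omega

lemma gam_nonneg (D j : ℕ) : 0 ≤ gam B W D j := by unfold gam c1; positivity

lemma gam_step {D j : ℕ} (hj : j < D + 1) :
    2 * gam B W D (j + 1) + c1 B W ≤ gam B W D j := by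
  unfold gam
  have e : D + 1 - j = (D + 1 - (j + 1)) + 1 := by omega
  rw [e, pow_succ]
  have h1 : (1 : ℝ) ≤ 3 ^ (D + 1 - (j + 1)) := one_le_pow₀ (by norm_num)
  have h2 : 0 ≤ c1 B W := by unfold c1; positivity
  nlinarith

lemma grw_nonneg (hB : 1 ≤ B) (hW : 1 ≤ W) (D : ℕ) : ∀ j, 0 ≤ grw B W D j
  | 0 => le_rfl
  | j + 1 => by
    have := grw_nonneg hB hW D j
    have := gam_nonneg (B := B) (W := W) D 0
    unfold grw; positivity

lemma grw_le_succ (hB : 1 ≤ B) (hW : 1 ≤ W) (D j : ℕ) : grw B W D j ≤ grw B W D (j + 1) := by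
  have h0 := grw_nonneg hB hW D j
  have h1 : (1 : ℝ) ≤ B * W * (2 + B ^ 2 + B * gam B W D 0) := by
    have := gam_nonneg (B := B) (W := W) D 0
    have h3 : (1 : ℝ) ≤ 2 + B ^ 2 + B * gam B W D 0 := by nlinarith
    nlinarith [mul_le_mul hB hW zero_le_one (by linarith)]
  calc grw B W D j ≤ 1 * (1 + grw B W D j) := by linarith
    _ ≤ _ := mul_le_mul_of_nonneg_right h1 (by linarith)

variable {P : Par κ p}

/-- A node with a good centre. -/
structure CentreOk (P : Par κ p) (η w B : ℝ) (k : κ) (σ : ℝ) (ce : Expr κ J m) : Prop where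
  pos : 0 < σ
  le : σ ≤ B * P.sc k
  sc_le : P.sc k ≤ B
  aff : ∑ i, |ce.aff i| ≤ B / P.lam * σ
  aff' : ∑ i, |ce.aff i| ≤ B * P.sc k
  sm : ce.sm P.L P.sc ≤ B * σ * P.T
  good : ce.Good η P.L P.sc B (B / P.lam) w

/-- An allowed argument. -/
structure ArgOk (P : Par κ p) (η w Γ' Γ : ℝ) (a : Expr κ J m) : Prop where
  aff : ∑ i, |a.aff i| ≤ 1
  sm : a.sm P.L P.sc ≤ Γ * P.T / P.lam
  good : OGood P η w Γ' a

lemma good_mono {B' R R' : ℝ} (hB : B ≤ B') (hR : R ≤ R') (h0 : 0 ≤ η)
    (hsc : ∀ k, 0 ≤ P.sc k) (e : Expr κ J m) :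
    e.Good η P.L P.sc B R w → e.Good η P.L P.sc B' R' w := by
  induction e with
  | var j => exact fun _ => trivial
  | zero => exact fun _ => trivial
  | add e f he hf => exact fun h => ⟨he h.1, hf h.2⟩
  | smul t e he => exact fun h => he h
  | node k σ e he =>
    intro h
    obtain ⟨h1, h2, h3, h4, h5, h6, h7⟩ := h
    exact ⟨h1, h2.trans (mul_le_mul_of_nonneg_right hB (hsc k)), h3.trans hB,
      h4.trans (mul_le_mul_of_nonneg_right hR h1.le),
      h5.trans (mul_le_mul_of_nonneg_right hB (hsc k)),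
      h6.trans (by
        have : (0:ℝ) ≤ η ^ w := rpow_nonneg h0 w
        gcongr), he h7⟩
  | mean C e he => exact fun h => he h

variable (hP : P.Ok η w B W) (hη : 0 < η)
include hP hη

/-- The surrogate of a node at an allowed argument. -/
lemma surrE_ok {k : κ} {σ : ℝ} {ce a : Expr κ J m} (hc : CentreOk P η w B k σ ce) {Γ Γ' : ℝ}
    (hΓ : 0 ≤ Γ) (hΓ' : 4 * (B + Γ) ≤ Γ') (ha : ArgOk P η w Γ' Γ a) :
    OGood P η w Γ' (surrE P k σ ce a) ∧ (∀ i, (surrE P k σ ce a).aff i = 0) ∧
      (surrE P k σ ce a).sm P.L P.sc ≤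
        W / (P.lam * σ) * (P.L * (P.sc k + B * σ * P.T + σ * (Γ * P.T))) := by
  have hσ := hc.pos
  have hl := hP.hlam
  have hB := hP.hB
  have hρ : ∀ j, |P.lam * P.v j| ≤ P.lam := fun j => by
    rw [abs_mul, abs_of_pos hl]
    exact mul_le_of_le_one_right hl.le (hP.hv j)
  have hsm : ∀ j, (Expr.add ce (.smul (σ * (P.lam * P.v j)) a)).sm P.L P.sc ≤
      B * σ * P.T + σ * (Γ * P.T) := fun j => by
    simp only [Expr.sm]
    refine add_le_add hc.sm ?_
    rw [abs_mul, abs_of_pos hσ, mul_assoc]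
    refine mul_le_mul_of_nonneg_left ?_ hσ.le
    refine (mul_le_mul (hρ j) ha.sm (sm_nonneg hP.hL hP.hsc a) hl.le).trans_eq ?_
    field_simp
  refine ⟨good_esum _ fun j => ?_, fun i => ?_, ?_⟩
  · set σ' := σ * √(1 - (P.lam * P.v j) ^ 2)
    have hs1 : 1 / 2 ≤ √(1 - (P.lam * P.v j) ^ 2) := le_sqrt_of_sq_le (by
      nlinarith [sq_abs (P.lam * P.v j), hρ j, abs_nonneg (P.lam * P.v j), hP.hlam2])
    have hs2 : √(1 - (P.lam * P.v j) ^ 2) ≤ 1 := sqrt_le_one.2 (by nlinarith)
    have hσ2 : σ ≤ 2 * σ' := by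
      simp only [σ']; nlinarith [mul_le_mul_of_nonneg_left hs1 hσ.le]
    have hσ1 : σ' ≤ σ := mul_le_of_le_one_right hσ.le hs2
    have hA : ∑ i, |(Expr.add ce (.smul (σ * (P.lam * P.v j)) a)).aff i| ≤
        ∑ i, |ce.aff i| + σ * P.lam := by
      simp only [Expr.aff]
      refine (Finset.sum_le_sum fun i _ => abs_add_le _ _).trans ?_
      rw [Finset.sum_add_distrib]
      refine add_le_add le_rfl ?_
      simp only [abs_mul, ← Finset.mul_sum]
      rw [abs_of_pos hσ, ← abs_mul]
      exact (mul_le_mul_of_nonneg_left ha.aff (by positivity)).trans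
        (by rw [mul_one]; exact mul_le_mul_of_nonneg_left (hρ j) hσ.le)
    have hl1 : P.lam * P.lam ≤ 1 := by nlinarith [hP.hlam2]
    have hR : B / P.lam * σ + σ * P.lam ≤ Γ' / P.lam * σ' := by
      rw [div_mul_eq_mul_div, div_mul_eq_mul_div, div_add' _ _ _ hl.ne', div_le_div_iff_of_pos_right hl]
      have h0 := mul_le_mul_of_nonneg_left hl1 hσ.le
      have h1 := mul_le_mul_of_nonneg_left hσ2 (show 0 ≤ B + 1 by linarith)
      have h2 : (2 * (B + 1)) * σ' ≤ Γ' * σ' :=
        mul_le_mul_of_nonneg_right (by linarith) (by linarith)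
      nlinarith
    have hS : B * P.sc k + σ * P.lam ≤ Γ' * P.sc k := by
      have h0 : σ * P.lam ≤ σ := mul_le_of_le_one_right hσ.le (by linarith [hP.hlam2])
      have h2 : (2 * B) * P.sc k ≤ Γ' * P.sc k :=
        mul_le_mul_of_nonneg_right (by linarith) (hP.hsc k)
      linarith [hc.le]
    refine ⟨by linarith, (hσ1.trans hc.le).trans
      (mul_le_mul_of_nonneg_right (by linarith) (hP.hsc k)), hc.sc_le.trans (by linarith),
      hA.trans ((add_le_add hc.aff le_rfl).trans hR), hA.trans ((add_le_add hc.aff' le_rfl).trans hS),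
      (hsm j).trans ?_, good_mono (by linarith) ?_ hη.le hP.hsc ce hc.good, ha.good⟩
    · rw [← hP.hT, show B * σ * P.T + σ * (Γ * P.T) = (B + Γ) * σ * P.T by ring]
      refine mul_le_mul_of_nonneg_right ?_ hP.hT0.le
      have h1 := mul_le_mul_of_nonneg_left hσ2 (show 0 ≤ B + Γ by linarith)
      have h2 : (2 * (B + Γ)) * σ' ≤ Γ' * σ' :=
        mul_le_mul_of_nonneg_right (by linarith) (by linarith)
      linarith
    · exact div_le_div_of_nonneg_right (by linarith) hl.le
  · simp [surrE, aff_esum, Expr.aff]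
  · rw [surrE, sm_esum]
    simp only [Expr.sm]
    refine (Finset.sum_le_sum fun j _ => mul_le_mul_of_nonneg_left
      (mul_le_mul_of_nonneg_left (add_le_add le_rfl (hsm j)) hP.hL) (abs_nonneg _)).trans ?_
    rw [← Finset.sum_mul, ← add_assoc]
    refine mul_le_mul_of_nonneg_right ?_ (mul_nonneg hP.hL ?_)
    · simp only [abs_div, ← Finset.sum_div]
      rw [abs_of_pos (mul_pos hl hσ)]
      exact div_le_div_of_nonneg_right hP.hw (by positivity)
    · have := hP.hsc k
      have := hP.hT0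
      positivity

/-- Picard rounds stay allowed. -/
lemma picE_ok {k : κ} {σ : ℝ} {ce z g : Expr κ J m} (hc : CentreOk P η w B k σ ce)
    (hne : P.L ≠ 0) {Γ Γ' : ℝ} (hΓ : 0 ≤ Γ) (hΓ' : 4 * (B + (2 * Γ + c1 B W)) ≤ Γ')
    (hz : ArgOk P η w Γ' Γ z) (hg : ArgOk P η w Γ' Γ g) :
    ∀ (l : ℕ) (τ : ℝ), |τ| ≤ ang P k σ →
      ArgOk P η w Γ' (2 * Γ + c1 B W) (picE P k σ ce z g l τ).1 ∧
        ArgOk P η w Γ' (2 * Γ + c1 B W) (picE P k σ ce z g l τ).2 ∧
        (∀ i, (picE P k σ ce z g l τ).1.aff i = z.aff i) := by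
  have hl := hP.hlam
  have hB := hP.hB
  have hT := hP.hT0
  have hσ := hc.pos
  have hc1 : 0 ≤ c1 B W := by unfold c1; positivity
  have hL : 0 < P.L := lt_of_le_of_ne hP.hL (Ne.symm hne)
  have hsc : 0 < P.sc k := by
    by_contra h
    have := le_antisymm (not_lt.1 h) (hP.hsc k)
    have := hc.le
    simp_all
    linarith
  have h0 : ∀ {x : Expr κ J m}, ArgOk P η w Γ' Γ x → ArgOk P η w Γ' (2 * Γ + c1 B W) x :=
    fun h => ⟨h.aff, h.sm.trans (by gcongr; linarith), h.good⟩
  intro l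
  induction l with
  | zero => exact fun τ _ => ⟨h0 hz, h0 hg, fun i => rfl⟩
  | succ l ih =>
    intro τ hτ
    have hu : ∀ j, |τ * P.u j| ≤ ang P k σ := fun j => by
      rw [abs_mul]; exact (mul_le_of_le_one_right (abs_nonneg _) (hP.hu j)).trans hτ
    have key : ∀ {x : Expr κ J m} (t : ℝ) (y : Fin p → Expr κ J m), |t| ≤ ang P k σ →
        ArgOk P η w Γ' Γ x → (∀ j, ArgOk P η w Γ' (2 * Γ + c1 B W) (y j)) →
        ArgOk P η w Γ' (2 * Γ + c1 B W)
            (.add x (.smul t (esum fun j => .smul (P.q j) (surrE P k σ ce (y j))))) ∧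
          ∀ i, (Expr.add x (.smul t (esum fun j =>
            .smul (P.q j) (surrE P k σ ce (y j))))).aff i = x.aff i := by
      intro x t y ht hx hy
      have hs := fun j => surrE_ok hP hη hc (Γ := 2 * Γ + c1 B W) (by positivity) hΓ' (hy j)
      have haff : ∀ i, (Expr.add x (.smul t (esum fun j =>
          .smul (P.q j) (surrE P k σ ce (y j))))).aff i = x.aff i := fun i => by
        simp [Expr.aff, aff_esum, (hs _).2.1]
      refine ⟨⟨by simpa only [haff] using hx.aff, ?_, hx.good, good_esum _ fun j => (hs j).1⟩, haff⟩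
      simp only [Expr.sm, sm_esum]
      set Γ₁ := 2 * Γ + c1 B W
      have hW0 : 0 ≤ W := by linarith [hP.hW]
      have hΓ₁ : 0 ≤ Γ₁ := by positivity
      have hX : 0 ≤ P.L * (P.sc k + B * σ * P.T + σ * (Γ₁ * P.T)) := by positivity
      refine (add_le_add hx.sm (mul_le_mul ht ((Finset.sum_le_sum fun j _ =>
        mul_le_mul_of_nonneg_left (hs j).2.2 (abs_nonneg _)).trans_eq (Finset.sum_mul ..).symm |>.trans
          (mul_le_mul_of_nonneg_right hP.hq (by positivity))) (Finset.sum_nonneg fun j _ =>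
            mul_nonneg (abs_nonneg _) (sm_nonneg hP.hL hP.hsc _))
        (by unfold ang; positivity))).trans ?_
      have e : ang P k σ * (W * (W / (P.lam * σ) *
          (P.L * (P.sc k + B * σ * P.T + σ * (Γ₁ * P.T))))) =
          P.T / P.lam * (W ^ 2 * (P.sc k + B * σ * P.T + σ * (Γ₁ * P.T)) / P.sc k) := by
        unfold ang; field_simp
      rw [e]
      have h1 : B * σ * P.T ≤ B ^ 2 * P.sc k := by
        calc B * σ * P.T ≤ B * (B * P.sc k) * 1 := by
              gcongr
              exacts [hc.le, hP.hT1]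
          _ = _ := by ring
      have h2 : W ^ 2 * (σ * (Γ₁ * P.T)) ≤ Γ₁ / 8 * P.sc k := by
        calc W ^ 2 * (σ * (Γ₁ * P.T)) ≤ W ^ 2 * (B * P.sc k * (Γ₁ * P.T)) := by
              gcongr; exact hc.le
          _ = W * W * B * P.T * (Γ₁ * P.sc k) := by ring
          _ ≤ 1 / 8 * (Γ₁ * P.sc k) := mul_le_mul_of_nonneg_right hP.small (by positivity)
          _ = _ := by ring
      have h3 : W ^ 2 * (P.sc k + B * σ * P.T + σ * (Γ₁ * P.T)) / P.sc k ≤
          W ^ 2 * (1 + B ^ 2) + Γ₁ / 8 := by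
        rw [div_le_iff₀ hsc]
        nlinarith [mul_le_mul_of_nonneg_left h1 (sq_nonneg W)]
      calc Γ * P.T / P.lam +
            P.T / P.lam * (W ^ 2 * (P.sc k + B * σ * P.T + σ * (Γ₁ * P.T)) / P.sc k)
          ≤ Γ * P.T / P.lam + P.T / P.lam * (W ^ 2 * (1 + B ^ 2) + Γ₁ / 8) :=
            add_le_add le_rfl (mul_le_mul_of_nonneg_left h3 (by positivity))
        _ = (Γ + W ^ 2 * (1 + B ^ 2) + Γ₁ / 8) * P.T / P.lam := by ring
        _ ≤ Γ₁ * P.T / P.lam := by
          gcongr
          simp only [Γ₁, c1]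
          nlinarith [sq_nonneg W, sq_nonneg (W * B)]
    have k1 := key τ (fun j => (picE P k σ ce z g l (τ * P.u j)).2) hτ hz fun j =>
      (ih _ (hu j)).2.1
    exact ⟨k1.1, (key (-τ) (fun j => (picE P k σ ce z g l (τ * P.u j)).1) (by rwa [abs_neg]) hg
      fun j => (ih _ (hu j)).1).1, k1.2⟩

omit hP hη in
/-- The output has no linear part. -/
theorem build_aff : ∀ {n : ℕ} (e : Expr κ J n) (i : Fin n) {m : ℕ} (r : Fin n → Fin m)
    (a : Expr κ J m) (b : Fin m), (build P e i r a).aff b = 0 := by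
  intro n e
  induction e with
  | var j => intros; rfl
  | zero => intros; rfl
  | add e f he hf => intros; simp [build, Expr.aff, he, hf]
  | smul t e he => intros; simp [build, Expr.aff, he]
  | node k σ e he =>
    intros
    simp only [build]
    split
    · rfl
    · simp [Expr.aff, aff_esum, surrE, he]
  | mean C e he => intros; simp [build, Expr.aff, he]

/-- **Sizes of the built expressions.** -/
theorem build_ok (D : ℕ) : ∀ {n : ℕ} (e : Expr κ J n) (j : ℕ), e.depth ≤ j → j ≤ D →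
    e.Good η P.L P.sc B (B / P.lam) w → ∀ (i : Fin n) {m : ℕ} (r : Fin n → Fin m)
      (a : Expr κ J m), ArgOk P η w (bnd B W D) (gam B W D j) a →
      OGood P η w (bnd B W D) (build P e i r a) ∧
        (build P e i r a).sm P.L P.sc ≤ grw B W D j / P.lam ^ 2 * e.sm P.L P.sc := by
  intro n e
  induction e with
  | var j => intros; exact ⟨trivial, by simp [build, Expr.sm]⟩
  | zero => intros; exact ⟨trivial, by simp [build, Expr.sm]⟩
  | add e f he hf =>
    intro j hj hD hG i m r a ha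
    have h1 := he j ((le_max_left _ _).trans hj) hD hG.1 i r a ha
    have h2 := hf j ((le_max_right _ _).trans hj) hD hG.2 i r a ha
    refine ⟨⟨h1.1, h2.1⟩, ?_⟩
    simp only [build, Expr.sm, mul_add]
    exact add_le_add h1.2 h2.2
  | smul t e he =>
    intro j hj hD hG i m r a ha
    obtain ⟨h1, h2⟩ := he j hj hD hG i r a ha
    refine ⟨h1, ?_⟩
    simp only [build, Expr.sm]
    exact (mul_le_mul_of_nonneg_left h2 (abs_nonneg t)).trans_eq (mul_left_comm _ _ _)
  | mean C e he =>
    intro j hj hD hG i m r a ha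
    obtain ⟨j, rfl⟩ : ∃ j', j = j' + 1 :=
      ⟨j - 1, by simp only [Expr.depth] at hj; omega⟩
    simp only [Expr.depth] at hj
    have hj' : e.depth ≤ j := by omega
    obtain ⟨h1, h2⟩ := he j hj' (by omega) hG i.succ (Fin.cons 0 (Fin.succ ∘ r))
      (a.ren Fin.succ) ⟨(sum_abs_aff_ren_le a _).trans ha.aff, by
        rw [sm_ren]
        refine ha.sm.trans ?_
        have := hP.hT0
        have := hP.hlam
        gcongr
        exact gam_le hP.hB D (Nat.le_succ j), good_ren a ha.good _⟩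
    refine ⟨h1, ?_⟩
    simp only [build, Expr.sm, build_aff, abs_zero, add_zero]
    have hl := hP.hlam
    refine h2.trans (mul_le_mul (div_le_div_of_nonneg_right (grw_le_succ hP.hB hP.hW D j)
      (by positivity)) (le_add_of_nonneg_right (abs_nonneg _)) (sm_nonneg hP.hL hP.hsc e)
      (div_nonneg (grw_nonneg hP.hB hP.hW D _) (by positivity)))
  | node k σ e he =>
    intro j hj hD hG i m r a ha
    obtain ⟨j, rfl⟩ : ∃ j', j = j' + 1 :=
      ⟨j - 1, by simp only [Expr.depth] at hj; omega⟩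
    simp only [Expr.depth] at hj
    have hj' : e.depth ≤ j := by omega
    obtain ⟨hσ, hσs, hsc, hR, hS, hsm, hg⟩ := hG
    rw [← hP.hT] at hsm
    have hB := hP.hB
    have hl := hP.hlam
    have hT := hP.hT0
    have hsc0 := hP.hsc k
    simp only [build]
    split
    · exact ⟨trivial, mul_nonneg (div_nonneg (grw_nonneg hB hP.hW D _) (by positivity))
        (sm_nonneg hP.hL hP.hsc (Expr.node k σ e))⟩
    rename_i hne
    have hc : ∀ {l : ℕ} (r' : Fin _ → Fin l), CentreOk P η w B k σ (e.ren r') := fun r' =>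
      ⟨hσ, hσs, hsc, (sum_abs_aff_ren_le e r').trans hR, (sum_abs_aff_ren_le e r').trans hS,
        (sm_ren e r').trans_le hsm, good_ren e hg r'⟩
    have hG0 := gam_nonneg (B := B) (W := W) D (j + 1)
    have hGD : ∀ i, gam B W D i ≤ gam B W D 0 := fun i => gam_le hB D (Nat.zero_le i)
    have hc1 : 0 ≤ c1 B W := by unfold c1; positivity
    have hstep := gam_step (B := B) (W := W) (D := D) (j := j) (by omega)
    obtain ⟨s1, -, s3⟩ := surrE_ok hP hη (hc r) hG0
      (by unfold bnd; linarith [hGD (j + 1), gam_nonneg (B := B) (W := W) D 0]) ha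
    have hz : ArgOk P η w (bnd B W D) (gam B W D (j + 1)) (Expr.var (0 : Fin (m + 1)) : Expr κ J _) :=
      ⟨(sum_abs_aff_var _).le, by simp only [Expr.sm]; positivity, trivial⟩
    have hpic := fun (b : Fin p) => picE_ok hP hη (hc (Fin.succ ∘ r)) hne hG0
      (by unfold bnd; linarith [hGD j, gam_nonneg (B := B) (W := W) D 0]) hz
      (g := a.ren Fin.succ) ⟨(sum_abs_aff_ren_le a _).trans ha.aff,
        (sm_ren a _).trans_le ha.sm, good_ren a ha.good _⟩ P.rounds (ang P k σ * P.v b) (by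
        have : 0 ≤ ang P k σ := by unfold ang; have := hP.hL; positivity
        rw [abs_mul, abs_of_nonneg this]
        exact mul_le_of_le_one_right this (hP.hv b))
    have hin := fun (b : Fin p) => he j hj' (by omega) hg i (Fin.succ ∘ r) _
      (⟨(hpic b).1.aff, (hpic b).1.sm.trans (by gcongr), (hpic b).1.good⟩ :
        ArgOk P η w (bnd B W D) (gam B W D j) _)
    refine ⟨⟨s1, good_esum _ fun b => (hin b).1⟩, ?_⟩
    simp only [Expr.sm, sm_esum, build_aff, abs_zero, add_zero]
    have hL : 0 < P.L := lt_of_le_of_ne hP.hL (Ne.symm hne)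
    have hscp : 0 < P.sc k := by
      rcases eq_or_lt_of_le hsc0 with h | h
      · rw [← h, mul_zero] at hσs; linarith
      · exact h
    have hA : |e.aff i| ≤ B / P.lam * σ :=
      (Finset.single_le_sum (f := fun i => |e.aff i|) (fun _ _ => abs_nonneg _)
        (Finset.mem_univ i)).trans hR
    have he0 := sm_nonneg hP.hL hP.hsc e
    set G := grw B W D j
    have hG' : 0 ≤ G := grw_nonneg hB hP.hW D j
    have t1 : |e.aff i| * (surrE P k σ (e.ren r) a).sm P.L P.sc ≤
        B * W * (1 + B ^ 2 + B * gam B W D 0) / P.lam ^ 2 * (P.L * P.sc k) := by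
      refine (mul_le_mul hA s3 (sm_nonneg hP.hL hP.hsc _) (by positivity)).trans ?_
      have h1 : P.sc k + B * σ * P.T + σ * (gam B W D (j + 1) * P.T) ≤
          (1 + B ^ 2 + B * gam B W D 0) * P.sc k := by
        calc P.sc k + B * σ * P.T + σ * (gam B W D (j + 1) * P.T)
            ≤ P.sc k + B * (B * P.sc k) * 1 + B * P.sc k * (gam B W D 0 * 1) := by
              gcongr
              exacts [hP.hT1, gam_nonneg D 0, hGD _, hP.hT1]
          _ = _ := by ring
      calc B / P.lam * σ * (W / (P.lam * σ) *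
            (P.L * (P.sc k + B * σ * P.T + σ * (gam B W D (j + 1) * P.T))))
          = B * W / P.lam ^ 2 *
            (P.L * (P.sc k + B * σ * P.T + σ * (gam B W D (j + 1) * P.T))) := by field_simp
        _ ≤ B * W / P.lam ^ 2 * (P.L * ((1 + B ^ 2 + B * gam B W D 0) * P.sc k)) := by
            have := hP.hW
            gcongr
        _ = _ := by ring
    have t2 : |(ang P k σ)⁻¹| * ∑ b, |P.w b| * (build P e i (Fin.succ ∘ r)
          (picE P k σ (e.ren (Fin.succ ∘ r)) (.var 0) (a.ren Fin.succ) P.rounds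
            (ang P k σ * P.v b)).1).sm P.L P.sc ≤
        B * W * G / P.lam ^ 2 * (P.L * P.sc k) := by
      have hang : 0 < ang P k σ := by unfold ang; positivity
      rw [abs_of_pos (inv_pos.2 hang)]
      refine (mul_le_mul_of_nonneg_left (((Finset.sum_le_sum fun b _ =>
        mul_le_mul_of_nonneg_left (hin b).2 (abs_nonneg _)).trans_eq
          (Finset.sum_mul ..).symm).trans (mul_le_mul hP.hw
            (mul_le_mul_of_nonneg_left hsm (by positivity)) (by positivity)
            (by linarith [hP.hW]))) (inv_pos.2 hang).le).trans ?_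
      apply le_of_eq
      unfold ang
      field_simp
    calc _ ≤ B * W * (1 + B ^ 2 + B * gam B W D 0) / P.lam ^ 2 * (P.L * P.sc k) +
          B * W * G / P.lam ^ 2 * (P.L * P.sc k) := add_le_add t1 t2
      _ ≤ B * W * (2 + B ^ 2 + B * gam B W D 0) * (1 + G) / P.lam ^ 2 *
          (P.L * P.sc k) := by
          rw [← add_mul, ← add_div, ← mul_add, mul_assoc (B * W)]
          have := hP.hW
          have := gam_nonneg (B := B) (W := W) D 0
          gcongr
          have : 0 ≤ (1 + B ^ 2 + B * gam B W D 0) * G := by positivity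
          nlinarith
      _ ≤ _ := mul_le_mul_of_nonneg_left
          (mul_le_mul_of_nonneg_left (le_add_of_nonneg_right he0) hP.hL)
          (div_nonneg (grw_nonneg hB hP.hW D (j + 1)) (by positivity))

end Vale.Agent.P347.Shift.MV
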